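import Vale.Agent.P027.R3.H955.Captured
import Vale.Agent.P027.R3.H250.P0

set_option linter.all false

/-!
The captured prime as a prime ideal of the ring of `p`-integers.
-/

namespace Vale.Agent.P027.T3

open Vale.Agent.P027 Module IsDedekindDomain NumberField
open Vale.Agent.P027.R2.H955

variable {p : ℕ} [hp : Fact p.Prime] {K : Type} [Field K] [NumberField K]
  {D : Fld p K} {β : K} {V : ℕ}

lemma val_le_one5 {x : K} (hx : Out p x) (v : HeightOneSpectrum (𝓞 K))
    (hv : (p : 𝓞 K) ∉ v.asIdeal) : v.valuation K x ≤ 1 := by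
  by_cases h0 : x = 0
  · rw [h0, map_zero]; exact zero_le'
  · rw [← vv_nonneg_iff]
    exact vv_nonneg_of_out5 h0 hx v hv

/-- the ideal of the ring of `p`-integers at a place not above `p` -/
def placeIdeal5 (p : ℕ) [hp : Fact p.Prime] (v : HeightOneSpectrum (𝓞 K))
    (hv : (p : 𝓞 K) ∉ v.asIdeal) : Ideal (OutRing p K) where
  carrier := {x | v.valuation K (x : K) < 1}
  zero_mem' := by simp
  add_mem' := by
    intro a b ha hb
    have ha' : v.valuation K (a : K) < 1 := ha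
    have hb' : v.valuation K (b : K) < 1 := hb
    change v.valuation K ((a : K) + (b : K)) < 1
    exact lt_of_le_of_lt (Valuation.map_add _ _ _) (max_lt ha' hb')
  smul_mem' := by
    intro a b hb
    change v.valuation K ((a : K) * (b : K)) < 1
    have hb' : v.valuation K (b : K) < 1 := hb
    rw [map_mul, mul_comm]
    exact mul_lt_one_of_lt_of_le hb' (val_le_one5 a.2 v hv)

lemma placeIdeal5_prime (v : HeightOneSpectrum (𝓞 K)) (hv : (p : 𝓞 K) ∉ v.asIdeal) :
    (placeIdeal5 p v hv).IsPrime := by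
  refine ⟨?_, ?_⟩
  · rw [Ideal.ne_top_iff_one]
    intro h
    change v.valuation K ((1 : OutRing p K) : K) < 1 at h
    simp at h
  · intro a b hab
    change v.valuation K ((a : K) * (b : K)) < 1 at hab
    by_contra hcon
    push Not at hcon
    obtain ⟨h1, h2⟩ := hcon
    have h1' : ¬ v.valuation K (a : K) < 1 := h1
    have h2' : ¬ v.valuation K (b : K) < 1 := h2
    have h3 := le_antisymm (val_le_one5 a.2 v hv) (not_lt.1 h1')
    have h4 := le_antisymm (val_le_one5 b.2 v hv) (not_lt.1 h2')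
    rw [map_mul, h3, h4, mul_one] at hab
    exact lt_irrefl _ hab

lemma kp5_mul {K : Type} [Field K] {p : ℕ} (hp1 : 1 ≤ p) {X : K} (hX : X ≠ 0) :
    kp5 p X * (X - X⁻¹) = X ^ p - (X ^ p)⁻¹ := by
  have h := kap_geom p X
  have e1 : X - X⁻¹ = X⁻¹ * (X ^ 2 - 1) := by
    rw [mul_sub, mul_one, pow_two, ← mul_assoc, inv_mul_cancel₀ hX, one_mul]
  have e2 : kp5 p X * (X - X⁻¹) = (X⁻¹) ^ p * (kap p X * (X ^ 2 - 1)) := by
    rw [e1, kp5]
    obtain ⟨k, rfl⟩ := Nat.exists_eq_add_of_le' hp1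
    rw [Nat.add_sub_cancel, pow_succ]
    ring
  rw [e2, h, mul_sub, mul_one, inv_pow, two_mul, pow_add, ← mul_assoc,
    inv_mul_cancel₀ (pow_ne_zero _ hX), one_mul]

/-- the captured prime in the form used by the reading formula -/
theorem capt (h : Base D β V) (hp12 : p % 12 = 7) (w : ℕ) :
    ∃ q : ℕ, (T2.Inert3 q ∧ q ≠ p) ∧ ∃ Q : Ideal (OutRing p K), Q.IsPrime ∧
      (q : OutRing p K) ∈ Q ∧ ∃ y ∈ Q, ((y : OutRing p K) : K) * (β ^ p ^ w - (β ^ p ^ w)⁻¹) =
        (β ^ p ^ w) ^ p - ((β ^ p ^ w) ^ p)⁻¹ := by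
  obtain ⟨q, hq, hqp, v, hqv, hkv⟩ := captured h hp12 w
  have hqm := (val_natCast5 v q).1 hqv
  have hpv := not_both5 v hp.out hq.1 hqp hqm
  have hX0 : β ^ (p ^ w) ≠ 0 := pow_ne_zero _ h.ne
  refine ⟨q, ⟨hq, hqp⟩, placeIdeal5 p v hpv, placeIdeal5_prime v hpv, ?_,
    ⟨kp5 p (β ^ (p ^ w)), (h.cg_kp5 w).out⟩, ?_, kp5_mul hp.out.one_lt.le hX0⟩
  · change v.valuation K (((q : OutRing p K)) : K) < 1
    push_cast
    exact hqv
  · change v.valuation K (kp5 p (β ^ (p ^ w))) < 1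
    rw [kp5, map_mul, mul_comm]
    refine mul_lt_one_of_lt_of_le hkv ?_
    rw [← vv_nonneg_iff, vv_pow, vv_inv, vv_pow, h.vv_eq5 v hpv]
    simp

end Vale.Agent.P027.T3
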