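import Vale.Agent.P027.R3.H955.Order

set_option linter.all false

/-!
The captured prime: `kap p (β ^ (p ^ w))` is divisible by a prime above some `q ≡ 5, 7` modulo `12`.
-/

namespace Vale.Agent.P027.T3

open Vale.Agent.P027 Module IsDedekindDomain NumberField
open Vale.Agent.P027.R2.H955

section cg

variable {K : Type} [Field K] [NumberField K] {p : ℕ}

lemma isInt5_int (c : ℤ) : IsIntegral ℤ (c : K) := by
  have := isIntegral_algebraMap (R := ℤ) (A := K) (x := c)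
  simpa using this

lemma isInt5_pow (p k : ℕ) : IsIntegral ℤ ((p : K) ^ k) := by
  have := isInt5_int (K := K) ((p : ℤ) ^ k)
  push_cast at this
  exact this

lemma out5_int (c : ℤ) : Out p (c : K) := ⟨0, by rw [pow_zero, one_mul]; exact isInt5_int c⟩

lemma out5_mul {x y : K} (hx : Out p x) (hy : Out p y) : Out p (x * y) := by
  obtain ⟨a, ha⟩ := hx
  obtain ⟨b, hb⟩ := hy
  refine ⟨a + b, ?_⟩
  have h := ha.mul hb
  have e : (p : K) ^ (a + b) * (x * y) = (p : K) ^ a * x * ((p : K) ^ b * y) := by ring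
  rwa [e]

lemma out5_add {x y : K} (hx : Out p x) (hy : Out p y) : Out p (x + y) := by
  obtain ⟨a, ha⟩ := hx
  obtain ⟨b, hb⟩ := hy
  refine ⟨a + b, ?_⟩
  have h := ((isInt5_pow p b).mul ha).add ((isInt5_pow p a).mul hb)
  have e : (p : K) ^ (a + b) * (x + y) =
      (p : K) ^ b * ((p : K) ^ a * x) + (p : K) ^ a * ((p : K) ^ b * y) := by ring
  rwa [e]

lemma out5_map {x : K} (τ : K ≃ₐ[ℚ] K) (hx : Out p x) : Out p (τ x) := by
  obtain ⟨a, ha⟩ := hx
  refine ⟨a, ?_⟩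
  have h := ha.map ((τ : K →+* K).toIntAlgHom)
  have e : ((τ : K →+* K).toIntAlgHom) ((p : K) ^ a * x) = (p : K) ^ a * τ x := by
    simp
  rwa [e] at h

/-- congruent to `c` modulo `12` outside `p` -/
def Cg5 (p : ℕ) (x : K) (c : ℤ) : Prop := ∃ δ, Out p δ ∧ x = c + 12 * δ

lemma Cg5.mul {x y : K} {c d : ℤ} (hx : Cg5 p x c) (hy : Cg5 p y d) : Cg5 p (x * y) (c * d) := by
  obtain ⟨a, ha, rfl⟩ := hx
  obtain ⟨b, hb, rfl⟩ := hy
  refine ⟨(c : K) * b + a * d + ((12 : ℤ) : K) * (a * b), ?_, by push_cast; ring⟩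
  exact out5_add (out5_add (out5_mul (out5_int c) hb) (out5_mul ha (out5_int d)))
    (out5_mul (out5_int 12) (out5_mul ha hb))

lemma Cg5.add {x y : K} {c d : ℤ} (hx : Cg5 p x c) (hy : Cg5 p y d) : Cg5 p (x + y) (c + d) := by
  obtain ⟨a, ha, rfl⟩ := hx
  obtain ⟨b, hb, rfl⟩ := hy
  exact ⟨a + b, out5_add ha hb, by push_cast; ring⟩

lemma Cg5.int (c : ℤ) : Cg5 p (c : K) c :=
  ⟨0, by simpa using out5_int (K := K) (p := p) 0, by ring⟩

lemma Cg5.out {x : K} {c : ℤ} (h : Cg5 p x c) : Out p x := by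
  obtain ⟨a, ha, rfl⟩ := h
  have h12 : Out p (12 : K) := by
    have := out5_int (K := K) (p := p) 12
    push_cast at this
    exact this
  exact out5_add (out5_int c) (out5_mul h12 ha)

lemma Cg5.pow {x : K} {c : ℤ} (h : Cg5 p x c) (n : ℕ) : Cg5 p (x ^ n) (c ^ n) := by
  induction n with
  | zero =>
    have := Cg5.int (K := K) (p := p) 1
    simpa using this
  | succ n ih => rw [pow_succ, pow_succ]; exact ih.mul h

lemma Cg5.sum {s : Finset ℕ} {f : ℕ → K} {c : ℕ → ℤ} (h : ∀ i ∈ s, Cg5 p (f i) (c i)) :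
    Cg5 p (∑ i ∈ s, f i) (∑ i ∈ s, c i) := by
  classical
  induction s using Finset.induction_on with
  | empty =>
    have := Cg5.int (K := K) (p := p) 0
    simpa using this
  | insert a s ha ih =>
    rw [Finset.sum_insert ha, Finset.sum_insert ha]
    exact (h a (Finset.mem_insert_self _ _)).add
      (ih fun i hi => h i (Finset.mem_insert_of_mem hi))

lemma Cg5.prod {s : Finset ℕ} {f : ℕ → K} {c : ℕ → ℤ} (h : ∀ i ∈ s, Cg5 p (f i) (c i)) :
    Cg5 p (∏ i ∈ s, f i) (∏ i ∈ s, c i) := by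
  classical
  induction s using Finset.induction_on with
  | empty =>
    have := Cg5.int (K := K) (p := p) 1
    simpa using this
  | insert a s ha ih =>
    rw [Finset.prod_insert ha, Finset.prod_insert ha]
    exact (h a (Finset.mem_insert_self _ _)).mul
      (ih fun i hi => h i (Finset.mem_insert_of_mem hi))

lemma Cg5.map {x : K} {c : ℤ} (τ : K ≃ₐ[ℚ] K) (h : Cg5 p x c) : Cg5 p (τ x) c := by
  obtain ⟨a, ha, rfl⟩ := h
  exact ⟨τ a, out5_map τ ha, by rw [map_add, map_mul, map_intCast, map_ofNat]⟩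

lemma Cg5.inv {x : K} (h : Cg5 p x 1) (hx : x ≠ 0) (hi : Out p x⁻¹) : Cg5 p x⁻¹ 1 := by
  obtain ⟨a, ha, h1⟩ := h
  refine ⟨((-1 : ℤ) : K) * (a * x⁻¹), out5_mul (out5_int (-1)) (out5_mul ha hi), ?_⟩
  have h2 : 12 * a = x - 1 := by rw [h1]; push_cast; ring
  have h3 : x * x⁻¹ = 1 := mul_inv_cancel₀ hx
  push_cast
  linear_combination (x⁻¹) * h2 + h3

end cg

section kapsec

lemma kap_geom {K : Type} [Field K] (p : ℕ) (X : K) : kap p X * (X ^ 2 - 1) = X ^ (2 * p) - 1 := by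
  have h := geom_sum_mul (X ^ 2) p
  unfold kap
  rw [pow_mul, ← h]
  congr 1
  refine Finset.sum_congr rfl fun i _ => ?_
  rw [pow_mul]

lemma kap_inv {K : Type} [Field K] (p : ℕ) {X : K} (hX : X ≠ 0) :
    kap p X⁻¹ = (X⁻¹) ^ (2 * (p - 1)) * kap p X := by
  unfold kap
  rw [Finset.mul_sum, ← Finset.sum_range_reflect]
  refine Finset.sum_congr rfl fun i hi => ?_
  have hi' := Finset.mem_range.1 hi
  have e : 2 * (p - 1) = 2 * (p - 1 - i) + 2 * i := by omega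
  rw [e, pow_add, inv_pow, inv_pow, mul_assoc, inv_mul_cancel₀ (pow_ne_zero _ hX), mul_one]

/-- the centered quotient -/
def kp5 {K : Type} [Field K] (p : ℕ) (X : K) : K := (X⁻¹) ^ (p - 1) * kap p X

lemma kp5_inv {K : Type} [Field K] (p : ℕ) {X : K} (hX : X ≠ 0) : kp5 p X⁻¹ = kp5 p X := by
  unfold kp5
  rw [kap_inv p hX, inv_inv, ← mul_assoc]
  congr 1
  have e : 2 * (p - 1) = (p - 1) + (p - 1) := by ring
  rw [e, pow_add, ← mul_assoc, ← mul_pow, mul_inv_cancel₀ hX, one_pow, one_mul]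

lemma kp5_map {K L : Type} [Field K] [Field L] (p : ℕ) (f : K →+* L) (X : K) :
    f (kp5 p X) = kp5 p (f X) := by
  unfold kp5 kap
  rw [map_mul, map_pow, map_inv₀, map_sum]
  congr 1
  exact Finset.sum_congr rfl fun i _ => by rw [map_pow]

variable {p : ℕ} [hp : Fact p.Prime]

lemma padic_sub_one_of_lt {z : ℚ_[p]} (hz : ‖z‖ < 1) : ‖z - 1‖ = 1 := by
  have h : ‖z‖ ≠ ‖(-1 : ℚ_[p])‖ := by
    rw [norm_neg, norm_one]; exact hz.ne
  rw [sub_eq_add_neg, Padic.add_eq_max_of_ne h, norm_neg, norm_one, max_eq_right hz.le]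

lemma padic_sub_one_of_gt {z : ℚ_[p]} (hz : 1 < ‖z‖) : ‖z - 1‖ = ‖z‖ := by
  have h : ‖z‖ ≠ ‖(-1 : ℚ_[p])‖ := by
    rw [norm_neg, norm_one]; exact hz.ne'
  rw [sub_eq_add_neg, Padic.add_eq_max_of_ne h, norm_neg, norm_one, max_eq_left hz.le]

lemma norm_kp5 (hp2 : p ≠ 2) {u : ℚ_[p]} (hu : u ≠ 0) (hu1 : ‖u‖ ≠ 1) :
    ∃ g : ℚ_[p], g ≠ 0 ∧ ‖kp5 p u‖ = ‖g‖ ^ 2 := by
  obtain ⟨r, hr⟩ : ∃ r, p = 2 * r + 1 := hp.out.odd_of_ne_two hp2
  have hr' : p - 1 = 2 * r := by omega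
  have h := congrArg (fun z => ‖z‖) (kap_geom p u)
  simp only [norm_mul] at h
  unfold kp5
  rw [norm_mul, norm_pow, norm_inv, hr']
  have hu0 : 0 < ‖u‖ := norm_pos_iff.2 hu
  rcases lt_or_gt_of_ne hu1 with h1 | h1
  · have h2 : ‖u ^ 2 - 1‖ = 1 := padic_sub_one_of_lt (by
      rw [norm_pow]; exact pow_lt_one₀ (norm_nonneg _) h1 (by norm_num))
    have h3 : ‖u ^ (2 * p) - 1‖ = 1 := padic_sub_one_of_lt (by
      rw [norm_pow]; exact pow_lt_one₀ (norm_nonneg _) h1 (by omega))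
    rw [h2, h3, mul_one] at h
    refine ⟨(u⁻¹) ^ r, pow_ne_zero _ (inv_ne_zero hu), ?_⟩
    rw [h, mul_one, norm_pow, norm_inv, ← pow_mul, mul_comm]
  · have h2 : ‖u ^ 2 - 1‖ = ‖u‖ ^ 2 := by
      rw [padic_sub_one_of_gt (by rw [norm_pow]; exact one_lt_pow₀ h1 (by norm_num)), norm_pow]
    have h3 : ‖u ^ (2 * p) - 1‖ = ‖u‖ ^ (2 * p) := by
      rw [padic_sub_one_of_gt (by rw [norm_pow]; exact one_lt_pow₀ h1 (by omega)), norm_pow]
    rw [h2, h3] at h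
    refine ⟨u ^ r, pow_ne_zero _ hu, ?_⟩
    have h4 : ‖kap p u‖ = ‖u‖ ^ (4 * r) := by
      have h5 : ‖u‖ ^ (2 * p) = ‖u‖ ^ (4 * r) * ‖u‖ ^ 2 := by
        rw [← pow_add]; congr 1; omega
      rw [h5] at h
      exact mul_right_cancel₀ (pow_ne_zero 2 hu0.ne') h
    rw [h4, norm_pow, ← pow_mul]
    have h6 : ‖u‖ ^ (4 * r) = ‖u‖ ^ (2 * r) * ‖u‖ ^ (r * 2) := by
      rw [← pow_add]; congr 1; ring
    rw [h6, ← mul_assoc, ← mul_pow, inv_mul_cancel₀ hu0.ne', one_pow, one_mul]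

lemma even_val5 {y : ℚ} {g : ℚ_[p]} (hy : y ≠ 0) (hg : g ≠ 0) (h : ‖(y : ℚ_[p])‖ = ‖g‖ ^ 2) :
    Even (padicValRat p y) := by
  rw [Padic.eq_padicNorm, padicNorm.eq_zpow_of_nonzero hy, Padic.norm_eq_zpow_neg_valuation hg] at h
  push_cast at h
  rw [← zpow_natCast, ← zpow_mul] at h
  have hp1 : (1 : ℝ) < p := p_gt_one5
  have h2 := zpow_right_injective₀ (by positivity) hp1.ne' h
  refine ⟨g.valuation, ?_⟩
  push_cast at h2
  linarith

end kapsec

section main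

variable {p : ℕ} [hp : Fact p.Prime] {K : Type} [Field K] [NumberField K]
  {D : Fld p K} {β : K} {V : ℕ}

lemma Base.norm_ne5 (h : Base D β V) {i : ℕ} (hi : i < D.m) : ‖D.φ ((D.σ ^ i) β)‖ ≠ 1 := by
  have hV := h.V_pos
  have hp1 := p_gt_one5 (p := p)
  rcases Nat.eq_zero_or_pos i with h0 | h0
  · rw [h0, pow_zero, AlgEquiv.one_apply, h.val]
    exact (zpow_lt_one_of_neg₀ hp1 (by omega)).ne
  · rcases h.val' i (by omega) (by omega) (by omega) with h1 | h1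
    · exact (lt_of_le_of_lt h1 (zpow_lt_one_of_neg₀ hp1 (by omega))).ne
    · exact (lt_of_lt_of_le (one_lt_zpow₀ hp1 (by omega)) h1).ne'

/-- an element fixed by the generator is rational -/
lemma Fld.rat_of_fixed5 (D : Fld p K) {y : K} (hy : D.σ y = y) : ∃ r : ℚ, (r : K) = y := by
  have := D.gal
  have h1 : ∀ i : ℕ, (D.σ ^ i) y = y := by
    intro i
    induction i with
    | zero => rw [pow_zero, AlgEquiv.one_apply]
    | succ i ih => rw [pow_succ, AlgEquiv.mul_apply, hy, ih]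
  have h2 : y ∈ Set.range (algebraMap ℚ K) := by
    rw [IsGalois.mem_range_algebraMap_iff_fixed]
    intro τ
    obtain ⟨i, -, rfl⟩ := D.gen τ
    exact h1 i
  obtain ⟨r, hr⟩ := h2
  exact ⟨r, by rw [← hr]; simp⟩

lemma Base.cg_kp5 (h : Base D β V) (w : ℕ) : Cg5 p (kp5 p (β ^ (p ^ w))) p := by
  obtain ⟨δ, hδ, hβ⟩ := h.c12
  have c1 : Cg5 p β 1 := ⟨δ, hδ, by rw [hβ]; push_cast; ring⟩
  have c2 := c1.inv h.ne h.out_inv
  have c3 : Cg5 p (β ^ (p ^ w)) 1 := by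
    have := c1.pow (p ^ w)
    rwa [one_pow] at this
  have c4 : Cg5 p (β ^ (p ^ w))⁻¹ 1 := by
    have := c2.pow (p ^ w)
    rwa [one_pow, inv_pow] at this
  have c5 : Cg5 p (kap p (β ^ (p ^ w))) p := by
    have := Cg5.sum (p := p) (s := Finset.range p) (f := fun i => (β ^ (p ^ w)) ^ (2 * i))
      (c := fun _ => 1) (fun i _ => by have := c3.pow (2 * i); rwa [one_pow] at this)
    unfold kap
    simpa using this
  have := (c4.pow (p - 1)).mul c5
  rwa [one_pow, one_mul] at this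

lemma Base.kap_ne5 (h : Base D β V) (w : ℕ) : kap p (β ^ (p ^ w)) ≠ 0 := by
  intro h0
  have hpw : 1 ≤ p ^ w := Nat.one_le_pow _ _ hp.out.pos
  have h1 := kap_geom p (β ^ (p ^ w))
  rw [h0, zero_mul, ← pow_mul] at h1
  exact h.pow_ne5 (n := p ^ w * (2 * p)) (Nat.mul_pos hpw (by have := hp.out.pos; omega))
    (sub_eq_zero.1 h1.symm)

/-- the rational number used in the reciprocity argument -/
lemma exists_y5 (h : Base D β V) (hp12 : p % 12 = 7) (w : ℕ) :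
    ∃ y : ℚ, y ≠ 0 ∧ (y : K) = ∏ i ∈ Finset.range D.m, (D.σ ^ i) (kp5 p (β ^ (p ^ w))) ∧
      Cg5 p (y : K) (p ^ D.m) ∧ Even (padicValRat p y) := by
  have hp2 : p ≠ 2 := by rintro rfl; norm_num at hp12
  set X := β ^ (p ^ w) with hX
  have hX0 : X ≠ 0 := pow_ne_zero _ h.ne
  have hpw : 1 ≤ p ^ w := Nat.one_le_pow _ _ hp.out.pos
  have hconj : (D.σ ^ D.m) X = X⁻¹ := by
    rw [hX, map_pow, h.conj, inv_pow]
  have hper : (D.σ ^ D.m) (kp5 p X) = kp5 p X := by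
    have h1 := kp5_map p (((D.σ ^ D.m : K ≃ₐ[ℚ] K)) : K →+* K) X
    have h2 : (((D.σ ^ D.m : K ≃ₐ[ℚ] K)) : K →+* K) (kp5 p X) = (D.σ ^ D.m) (kp5 p X) := rfl
    have h3 : (((D.σ ^ D.m : K ≃ₐ[ℚ] K)) : K →+* K) X = (D.σ ^ D.m) X := rfl
    rw [h2, h3, hconj, kp5_inv p hX0] at h1
    exact h1
  -- `kp5` is nonzero
  have hkap0 : kap p X ≠ 0 := h.kap_ne5 w
  have hk0 : kp5 p X ≠ 0 := mul_ne_zero (pow_ne_zero _ (inv_ne_zero hX0)) hkap0
  -- the product is fixed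
  have hfix : D.σ (∏ i ∈ Finset.range D.m, (D.σ ^ i) (kp5 p X)) =
      ∏ i ∈ Finset.range D.m, (D.σ ^ i) (kp5 p X) := by
    rw [map_prod]
    have h1 : ∏ i ∈ Finset.range D.m, D.σ ((D.σ ^ i) (kp5 p X)) =
        ∏ i ∈ Finset.range D.m, (D.σ ^ (i + 1)) (kp5 p X) :=
      Finset.prod_congr rfl fun i _ => by rw [pow_succ', AlgEquiv.mul_apply]
    rw [h1]
    have h2 := Finset.prod_range_succ' (fun i => (D.σ ^ i) (kp5 p X)) D.m
    rw [Finset.prod_range_succ, hper, pow_zero, AlgEquiv.one_apply] at h2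
    exact (mul_right_cancel₀ hk0 h2).symm
  obtain ⟨y, hy⟩ := D.rat_of_fixed5 hfix
  have hy0 : y ≠ 0 := by
    rintro rfl
    rw [Rat.cast_zero] at hy
    have h1 := hy.symm
    rw [Finset.prod_eq_zero_iff] at h1
    obtain ⟨i, -, hi⟩ := h1
    exact hk0 ((D.σ ^ i).injective (by rw [hi, map_zero]))
  refine ⟨y, hy0, hy, ?_, ?_⟩
  · -- the congruence
    rw [hy]
    have := Cg5.prod (p := p) (s := Finset.range D.m) (f := fun i => (D.σ ^ i) (kp5 p X))
      (c := fun _ => (p : ℤ)) (fun i _ => (h.cg_kp5 w).map (D.σ ^ i))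
    simpa using this
  · -- the valuation
    have h1 : ∀ i ∈ Finset.range D.m, ∃ g : ℚ_[p], g ≠ 0 ∧
        ‖D.φ ((D.σ ^ i) (kp5 p X))‖ = ‖g‖ ^ 2 := by
      intro i hi
      have hi' := Finset.mem_range.1 hi
      have h2 := kp5_map p ((D.φ).comp (((D.σ ^ i : K ≃ₐ[ℚ] K)) : K →+* K)) X
      have h3 : ((D.φ).comp (((D.σ ^ i : K ≃ₐ[ℚ] K)) : K →+* K)) (kp5 p X) =
        D.φ ((D.σ ^ i) (kp5 p X)) := rfl
      have h4 : ((D.φ).comp (((D.σ ^ i : K ≃ₐ[ℚ] K)) : K →+* K)) X = D.φ ((D.σ ^ i) X) := rfl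
      rw [h3, h4] at h2
      rw [h2]
      apply norm_kp5 hp2
      · exact (map_ne_zero _).2 ((map_ne_zero _).2 hX0)
      · rw [hX, map_pow, map_pow, norm_pow]
        intro h5
        have h6 := (pow_eq_one_iff_of_nonneg (norm_nonneg _) (by omega)).1 h5
        exact h.norm_ne5 hi' h6
    choose! g hg0 hg using h1
    apply even_val5 (g := ∏ i ∈ Finset.range D.m, g i) hy0 (Finset.prod_ne_zero_iff.2 hg0)
    have h2 := congrArg D.φ hy
    rw [map_ratCast, map_prod] at h2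
    rw [h2, norm_prod, norm_prod, ← Finset.prod_pow]
    exact Finset.prod_congr rfl hg

lemma odd_of_mod12 (hp12 : p % 12 = 7) {n : ℕ} (hn : Odd n) : (12 : ℤ) ∣ (p : ℤ) ^ n + 5 := by
  obtain ⟨k, rfl⟩ := hn
  have h1 : (p : ZMod 12) = 7 := by
    have : ((p : ℕ) : ZMod 12) = ((7 : ℕ) : ZMod 12) := by
      rw [ZMod.natCast_eq_natCast_iff]
      exact hp12
    exact_mod_cast this
  have h3 : ((12 : ℕ) : ℤ) ∣ (p : ℤ) ^ (2 * k + 1) + 5 := by
    rw [← ZMod.intCast_zmod_eq_zero_iff_dvd]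
    push_cast
    rw [h1, pow_succ, pow_mul]
    have h2 : (7 : ZMod 12) ^ 2 = 1 := by decide
    rw [h2, one_pow]
    decide
  exact_mod_cast h3

/-- integers from rational numbers integral outside `p` -/
lemma rat_of_out5 {x : ℚ} (h : Out p (x : K)) : ∃ (k : ℕ) (z : ℤ), (p : ℚ) ^ k * x = z := by
  obtain ⟨k, hk⟩ := h
  have e : (p : K) ^ k * (x : K) = algebraMap ℚ K ((p : ℚ) ^ k * x) := by
    simp
  rw [e, isIntegral_algebraMap_iff (algebraMap ℚ K).injective] at hk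
  obtain ⟨z, hz⟩ := IsIntegrallyClosed.isIntegral_iff.1 hk
  exact ⟨k, z, by rw [← hz]; simp⟩

lemma val_nonneg_of_out5 {x : ℚ} (h : ∃ (k : ℕ) (z : ℤ), (p : ℚ) ^ k * x = z) {q : ℕ}
    (hq : q.Prime) (hqp : q ≠ p) : 0 ≤ padicValRat q x := by
  have := Fact.mk hq
  obtain ⟨k, z, hz⟩ := h
  by_cases hx : x = 0
  · rw [hx]; simp
  have hp0 : (p : ℚ) ≠ 0 := by exact_mod_cast hp.out.ne_zero
  have h1 : padicValRat q (p : ℚ) = 0 := by
    rw [padicValRat.of_nat, padicValNat.eq_zero_of_not_dvd]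
    · rfl
    · intro h
      exact hqp ((Nat.prime_dvd_prime_iff_eq hq hp.out).1 h)
  have h2 : padicValRat q ((p : ℚ) ^ k * x) = padicValRat q x := by
    rw [padicValRat.mul (pow_ne_zero _ hp0) hx, padicValRat.pow, h1]
    ring
  rw [← h2, hz, padicValRat.of_int]
  exact Int.natCast_nonneg _

lemma exists_place5 (K : Type) [Field K] [NumberField K] {q : ℕ} (hq : q.Prime) :
    ∃ P : HeightOneSpectrum (𝓞 K), (q : 𝓞 K) ∈ P.asIdeal := by
  have h1 : Ideal.span {(q : 𝓞 K)} ≠ ⊤ := by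
    intro h
    have h2 : Ideal.absNorm (Ideal.span {(q : 𝓞 K)}) = 1 := by rw [h, Ideal.absNorm_top]
    have h3 : (Algebra.norm ℤ (q : 𝓞 K)).natAbs = q ^ Module.finrank ℚ K := by
      have h4 : (q : 𝓞 K) = algebraMap ℤ (𝓞 K) q := by simp
      rw [h4, Algebra.norm_algebraMap, NumberField.RingOfIntegers.rank K, Int.natAbs_pow,
        Int.natAbs_natCast]
    rw [Ideal.absNorm_span_singleton, h3] at h2
    have h4 : Module.finrank ℚ K ≠ 0 := Module.finrank_pos.ne'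
    exact (Nat.one_lt_pow h4 hq.one_lt).ne' h2
  obtain ⟨M, hM, hle⟩ := Ideal.exists_le_maximal _ h1
  have hmem : (q : 𝓞 K) ∈ M := hle (Ideal.mem_span_singleton_self _)
  refine ⟨⟨M, hM.isPrime, ?_⟩, hmem⟩
  intro h0
  rw [h0, Ideal.mem_bot] at hmem
  exact hq.ne_zero (by exact_mod_cast hmem)

/-- N6: captured prime -/
theorem captured (h : Base D β V) (hp12 : p % 12 = 7) (w : ℕ) :
    ∃ q : ℕ, T2.Inert3 q ∧ q ≠ p ∧ ∃ v : HeightOneSpectrum (𝓞 K),
      v.valuation K (q : K) < 1 ∧ v.valuation K (kap p (β ^ (p ^ w))) < 1 := by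
  obtain ⟨y, hy0, hy, hc, hev⟩ := exists_y5 h hp12 w
  have hcout := hc.out
  obtain ⟨δ, hδ, hyδ⟩ := hc
  obtain ⟨t, ht⟩ := odd_of_mod12 hp12 D.odd
  have hε : (((y - (p : ℚ) ^ D.m) / 12 : ℚ) : K) = δ := by
    push_cast
    rw [hyδ]
    push_cast
    field_simp
    ring
  obtain ⟨k, z, hz⟩ := rat_of_out5 (p := p) (K := K) (x := (y - (p : ℚ) ^ D.m) / 12)
    (by rw [hε]; exact hδ)
  have ht' : (p : ℚ) ^ D.m + 5 = 12 * t := by exact_mod_cast ht
  have hfive : ∃ (k : ℕ) (z : ℤ), (p : ℚ) ^ k * ((-y - 5) / 12) = z := by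
    refine ⟨k, -z - (p : ℤ) ^ k * t, ?_⟩
    push_cast
    rw [← hz]
    linear_combination (-(p : ℚ) ^ k / 12) * ht'
  have hF : T2.Five12 (-y) :=
    ⟨val_nonneg_of_out5 hfive Nat.prime_two (by rintro h2; omega),
      val_nonneg_of_out5 hfive Nat.prime_three (by rintro h2; omega)⟩
  obtain ⟨q, hq, hodd⟩ := T2.exists_inert3_odd hF
  rw [padicValRat.neg] at hodd
  have hqp : q ≠ p := by
    rintro rfl
    exact (Int.not_even_iff_odd.2 hodd) hev
  have := Fact.mk hq.1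
  refine ⟨q, hq, hqp, ?_⟩
  -- an integer
  obtain ⟨k1, Z, hZ⟩ := rat_of_out5 hcout
  have hp0 : (p : ℚ) ≠ 0 := by exact_mod_cast hp.out.ne_zero
  have hqZ : (q : ℤ) ∣ Z := by
    have h1 : padicValRat q (p : ℚ) = 0 := by
      rw [padicValRat.of_nat, padicValNat.eq_zero_of_not_dvd]
      · rfl
      · intro h
        exact hqp ((Nat.prime_dvd_prime_iff_eq hq.1 hp.out).1 h)
    have h2 : padicValRat q ((p : ℚ) ^ k1 * y) = padicValRat q y := by
      rw [padicValRat.mul (pow_ne_zero _ hp0) hy0, padicValRat.pow, h1]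
      ring
    rw [hZ, padicValRat.of_int] at h2
    rw [← h2] at hodd
    by_contra hnd
    rw [padicValInt.eq_zero_of_not_dvd hnd] at hodd
    simp at hodd
  -- an algebraic integer
  obtain ⟨k2, hk2⟩ := (h.cg_kp5 w).out
  set κ := kp5 p (β ^ (p ^ w)) with hκ
  obtain ⟨a, ha⟩ : ∃ a : 𝓞 K, (a : K) = (p : K) ^ k2 * κ := ⟨⟨_, hk2⟩, rfl⟩
  obtain ⟨P, hP⟩ := exists_place5 K hq.1
  let s : ℕ → (𝓞 K →+* 𝓞 K) := fun i =>
    RingOfIntegers.mapRingHom (((D.σ ^ i : K ≃ₐ[ℚ] K)) : K →+* K)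
  have hs : ∀ i, ((s i a : 𝓞 K) : K) = (D.σ ^ i) (a : K) := fun i => rfl
  have hprod : (p : 𝓞 K) ^ k1 * ∏ i ∈ Finset.range D.m, s i a =
      (p : 𝓞 K) ^ (k2 * D.m) * (Z : 𝓞 K) := by
    apply RingOfIntegers.coe_injective
    rw [map_mul, map_mul, map_pow, map_pow, map_prod, map_natCast, map_intCast]
    have h1 : ∏ i ∈ Finset.range D.m, algebraMap (𝓞 K) K (s i a) =
        (p : K) ^ (k2 * D.m) * (y : K) := by
      have h2 : ∀ i ∈ Finset.range D.m, algebraMap (𝓞 K) K (s i a) =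
          (p : K) ^ k2 * (D.σ ^ i) κ := by
        intro i _
        have h3 := hs i
        rw [ha, map_mul, map_pow, map_natCast] at h3
        exact h3
      rw [Finset.prod_congr rfl h2, Finset.prod_mul_distrib, Finset.prod_const, Finset.card_range,
        ← pow_mul, hy]
    rw [h1]
    have h2 : (Z : K) = (p : K) ^ k1 * (y : K) := by
      have := congrArg (fun x : ℚ => (x : K)) hZ
      simp only [Rat.cast_mul, Rat.cast_pow, Rat.cast_natCast, Rat.cast_intCast] at this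
      exact this.symm
    rw [h2]
    ring
  have hpP := not_both5 P hp.out hq.1 hqp hP
  have hZP : (Z : 𝓞 K) ∈ P.asIdeal := by
    obtain ⟨c, rfl⟩ := hqZ
    push_cast
    exact P.asIdeal.mul_mem_right _ hP
  have hPprime : P.asIdeal.IsPrime := P.isPrime
  have hmem : (p : 𝓞 K) ^ k1 * ∏ i ∈ Finset.range D.m, s i a ∈ P.asIdeal := by
    rw [hprod]
    exact P.asIdeal.mul_mem_left _ hZP
  have hmem2 : ∏ i ∈ Finset.range D.m, s i a ∈ P.asIdeal :=
    (hPprime.mem_or_mem hmem).resolve_left fun h1 => hpP (hPprime.mem_of_pow_mem _ h1)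
  obtain ⟨i, -, hi⟩ := hPprime.prod_mem_iff.1 hmem2
  -- the prime
  have hqc : (q : 𝓞 K) ∈ Ideal.comap (s i) P.asIdeal := by
    rw [Ideal.mem_comap, map_natCast]
    exact hP
  have hac : a ∈ Ideal.comap (s i) P.asIdeal := hi
  let v : HeightOneSpectrum (𝓞 K) := ⟨Ideal.comap (s i) P.asIdeal, inferInstance, by
    intro h0
    rw [h0, Ideal.mem_bot] at hqc
    exact hq.1.ne_zero (by exact_mod_cast hqc)⟩
  refine ⟨v, (val_natCast5 v q).2 hqc, ?_⟩
  have hpv := not_both5 v hp.out hq.1 hqp hqc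
  have hX0 : β ^ (p ^ w) ≠ 0 := pow_ne_zero _ h.ne
  have hkap := h.kap_ne5 w
  have hκ0 : κ ≠ 0 := mul_ne_zero (pow_ne_zero _ (inv_ne_zero hX0)) hkap
  have hpK : (p : K) ≠ 0 := by exact_mod_cast hp.out.ne_zero
  have ha0 : a ≠ 0 := by
    rintro rfl
    have h1 : (p : K) ^ k2 * κ = 0 := by rw [← ha]; simp
    exact (mul_ne_zero (pow_ne_zero _ hpK) hκ0) h1
  have h1 : 0 < vv v (a : K) := (vv_int_pos_iff v ha0).2 hac
  rw [ha, vv_mul v (pow_ne_zero _ hpK) hκ0, vv_pow, vv_p5 v hpv, mul_zero, zero_add, hκ, kp5,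
    vv_mul v (pow_ne_zero _ (inv_ne_zero hX0)) hkap, vv_pow, vv_inv, vv_pow, h.vv_eq5 v hpv,
    mul_zero, neg_zero, mul_zero, zero_add] at h1
  exact (vv_pos_iff v hkap).1 h1

end main

end Vale.Agent.P027.T3
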