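import Mathlib.NumberTheory.LSeries.PrimesInAP
import Mathlib.FieldTheory.Finite.Basic
import Mathlib.NumberTheory.LegendreSymbol.QuadraticChar.Basic
import Mathlib.GroupTheory.OrderOfElement
import Mathlib.Data.Nat.ChineseRemainder
import Mathlib.Tactic

set_option linter.all false

/-! The height bound for the form `x^(4t) + m^t x^(2t) + m^(2t)`, `t = 3^(kappa-1)`. -/

namespace Vale.Agent.P027.HB955

/-- a prime other than `3`, `m` dividing the form is `1` modulo `3 ^ kappa`, and `m` is a square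
modulo it -/
theorem prime_factor {kappa m q a b : ℕ} (hk : 1 ≤ kappa) (hm : m.Prime) (hq : q.Prime)
    (hq3 : q ≠ 3) (hqm : q ≠ m) (hab : Nat.Coprime a b)
    (h : q ∣ a ^ (4 * 3 ^ (kappa - 1)) + m ^ 3 ^ (kappa - 1) * a ^ (2 * 3 ^ (kappa - 1)) *
      b ^ (2 * 3 ^ (kappa - 1)) + m ^ (2 * 3 ^ (kappa - 1)) * b ^ (4 * 3 ^ (kappa - 1))) :
    ¬ q ∣ a ∧ ¬ q ∣ b ∧ q ≡ 1 [MOD 3 ^ kappa] ∧ IsSquare (m : ZMod q) := by
  haveI : Fact q.Prime := ⟨hq⟩
  haveI : Fact (Nat.Prime 3) := ⟨Nat.prime_three⟩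
  set t := 3 ^ (kappa - 1) with ht
  have ht0 : t ≠ 0 := by positivity
  have hcop : ¬ (q ∣ a ∧ q ∣ b) := by
    rintro ⟨h1, h2⟩
    exact hq.one_lt.ne' (Nat.dvd_one.1 (hab ▸ Nat.dvd_gcd h1 h2))
  have hz : (a : ZMod q) ^ (4 * t) + (m : ZMod q) ^ t * (a : ZMod q) ^ (2 * t) *
      (b : ZMod q) ^ (2 * t) + (m : ZMod q) ^ (2 * t) * (b : ZMod q) ^ (4 * t) = 0 := by
    have := (ZMod.natCast_eq_zero_iff _ q).2 h
    push_cast at this
    exact this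
  have hm0 : (m : ZMod q) ≠ 0 := by
    intro h0
    have := (ZMod.natCast_eq_zero_iff _ q).1 h0
    exact hqm ((Nat.prime_dvd_prime_iff_eq hq hm).1 this)
  have ha : (a : ZMod q) ≠ 0 := by
    intro h0
    rw [h0, zero_pow (by positivity), zero_pow (by positivity)] at hz
    have hb : (b : ZMod q) = 0 := by
      have : (m : ZMod q) ^ (2 * t) * (b : ZMod q) ^ (4 * t) = 0 := by linear_combination hz
      rcases mul_eq_zero.1 this with h1 | h1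
      · exact absurd (pow_eq_zero_iff (by positivity) |>.1 h1) hm0
      · exact pow_eq_zero_iff (by positivity) |>.1 h1
    exact hcop ⟨(ZMod.natCast_eq_zero_iff _ q).1 h0, (ZMod.natCast_eq_zero_iff _ q).1 hb⟩
  have hb : (b : ZMod q) ≠ 0 := by
    intro h0
    rw [h0, zero_pow (by positivity), zero_pow (by positivity)] at hz
    have : (a : ZMod q) ^ (4 * t) = 0 := by linear_combination hz
    exact ha (pow_eq_zero_iff (by positivity) |>.1 this)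
  refine ⟨fun h1 => ha ((ZMod.natCast_eq_zero_iff _ q).2 h1),
    fun h1 => hb ((ZMod.natCast_eq_zero_iff _ q).2 h1), ?_⟩
  set y : ZMod q := (a : ZMod q) ^ 2 / ((m : ZMod q) * (b : ZMod q) ^ 2) with hy
  have hy0 : y ≠ 0 := by
    exact div_ne_zero (pow_ne_zero _ ha) (mul_ne_zero hm0 (pow_ne_zero _ hb))
  have hden : (m : ZMod q) * (b : ZMod q) ^ 2 ≠ 0 := mul_ne_zero hm0 (pow_ne_zero _ hb)
  have hya : y * ((m : ZMod q) * (b : ZMod q) ^ 2) = (a : ZMod q) ^ 2 := div_mul_cancel₀ _ hden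
  have hcyc : (y ^ t) ^ 2 + y ^ t + 1 = 0 := by
    have h1 : ((m : ZMod q) * (b : ZMod q) ^ 2) ^ (2 * t) * ((y ^ t) ^ 2 + y ^ t + 1) = 0 := by
      have e1 : (a : ZMod q) ^ (4 * t) = (y ^ t) ^ 2 * ((m : ZMod q) * (b : ZMod q) ^ 2) ^ (2 * t) := by
        rw [show 4 * t = 2 * (2 * t) by ring, pow_mul, ← hya, mul_pow, ← pow_mul]
        ring
      have e2 : (a : ZMod q) ^ (2 * t) = y ^ t * ((m : ZMod q) * (b : ZMod q) ^ 2) ^ t := by
        rw [pow_mul, ← hya, mul_pow]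
      rw [e1, e2] at hz
      calc ((m : ZMod q) * (b : ZMod q) ^ 2) ^ (2 * t) * ((y ^ t) ^ 2 + y ^ t + 1)
          = (y ^ t) ^ 2 * ((m : ZMod q) * (b : ZMod q) ^ 2) ^ (2 * t) +
            (m : ZMod q) ^ t * (y ^ t * ((m : ZMod q) * (b : ZMod q) ^ 2) ^ t) *
            (b : ZMod q) ^ (2 * t) + (m : ZMod q) ^ (2 * t) * (b : ZMod q) ^ (4 * t) := by
            have e3 : ((m : ZMod q) * (b : ZMod q) ^ 2) ^ (2 * t) =
                (m : ZMod q) ^ (2 * t) * (b : ZMod q) ^ (4 * t) := by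
              rw [mul_pow, ← pow_mul]; congr 2; ring
            have e4 : (m : ZMod q) ^ t * ((m : ZMod q) * (b : ZMod q) ^ 2) ^ t *
                (b : ZMod q) ^ (2 * t) = (m : ZMod q) ^ (2 * t) * (b : ZMod q) ^ (4 * t) := by
              rw [mul_pow, ← pow_mul, show 4 * t = 2 * t + 2 * t by ring,
                show (m : ZMod q) ^ (2 * t) = (m : ZMod q) ^ t * (m : ZMod q) ^ t by
                  rw [← pow_add]; congr 1; ring, pow_add]
              ring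
            calc ((m : ZMod q) * (b : ZMod q) ^ 2) ^ (2 * t) * ((y ^ t) ^ 2 + y ^ t + 1)
                = (y ^ t) ^ 2 * ((m : ZMod q) * (b : ZMod q) ^ 2) ^ (2 * t) +
                  y ^ t * ((m : ZMod q) * (b : ZMod q) ^ 2) ^ (2 * t) +
                  ((m : ZMod q) * (b : ZMod q) ^ 2) ^ (2 * t) := by ring
              _ = (y ^ t) ^ 2 * ((m : ZMod q) * (b : ZMod q) ^ 2) ^ (2 * t) +
                  y ^ t * ((m : ZMod q) ^ t * ((m : ZMod q) * (b : ZMod q) ^ 2) ^ t *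
                    (b : ZMod q) ^ (2 * t)) +
                  (m : ZMod q) ^ (2 * t) * (b : ZMod q) ^ (4 * t) := by rw [e4, e3]
              _ = _ := by ring
        _ = 0 := hz
    rcases mul_eq_zero.1 h1 with h2 | h2
    · exact absurd h2 (pow_ne_zero _ hden)
    · exact h2
  have h3 : (3 : ZMod q) ≠ 0 := by
    intro h0
    have h1 : ((3 : ℕ) : ZMod q) = 0 := by exact_mod_cast h0
    exact hq3 ((Nat.prime_dvd_prime_iff_eq hq Nat.prime_three).1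
      ((ZMod.natCast_eq_zero_iff _ q).1 h1))
  obtain ⟨j, rfl⟩ : ∃ j, kappa = j + 1 := ⟨kappa - 1, by omega⟩
  have ht' : t = 3 ^ j := by rw [ht]; simp
  have hne : ¬ y ^ 3 ^ j = 1 := by
    intro h1
    rw [← ht'] at h1
    rw [h1] at hcyc
    apply h3
    linear_combination hcyc
  have hone : y ^ 3 ^ (j + 1) = 1 := by
    rw [pow_succ, pow_mul, ← ht']
    linear_combination (y ^ t - 1) * hcyc
  have hord : orderOf y = 3 ^ (j + 1) := orderOf_eq_prime_pow hne hone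
  constructor
  · have h1 : orderOf y ∣ q - 1 := ZMod.orderOf_dvd_card_sub_one hy0
    rw [hord] at h1
    exact ((Nat.modEq_iff_dvd' hq.one_lt.le).2 h1).symm
  · obtain ⟨s, hs⟩ : ∃ s, 3 ^ (j + 1) + 1 = 2 * s := by
      have : Odd (3 ^ (j + 1)) := Odd.pow (by decide)
      obtain ⟨r, hr⟩ := this
      exact ⟨r + 1, by omega⟩
    have hsq : y = (y ^ s) ^ 2 := by
      rw [← pow_mul, mul_comm s 2, ← hs, pow_succ, hone, one_mul]
    refine ⟨(a : ZMod q) / (y ^ s * b), ?_⟩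
    have hys : y ^ s ≠ 0 := pow_ne_zero _ hy0
    rw [div_mul_div_comm, eq_div_iff (by
      exact mul_ne_zero (mul_ne_zero hys hb) (mul_ne_zero hys hb))]
    calc (m : ZMod q) * (y ^ s * b * (y ^ s * b)) = (y ^ s) ^ 2 * ((m : ZMod q) * (b : ZMod q) ^ 2) := by ring
      _ = y * ((m : ZMod q) * (b : ZMod q) ^ 2) := by rw [← hsq]
      _ = (a : ZMod q) * a := by rw [hya]; ring

theorem nine_dvd {X W : ℕ} (h : 9 ∣ X ^ 2 + X * W + W ^ 2) : 3 ∣ X ∧ 3 ∣ W := by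
  have h1 : ∀ x w : ZMod 9, x ^ 2 + x * w + w ^ 2 = 0 → 3 * x = 0 ∧ 3 * w = 0 := by decide
  have h2 : ((X : ZMod 9)) ^ 2 + X * W + (W : ZMod 9) ^ 2 = 0 := by
    have := (ZMod.natCast_eq_zero_iff _ 9).2 h
    push_cast at this
    exact this
  obtain ⟨h3, h4⟩ := h1 _ _ h2
  have h5 : ((3 * X : ℕ) : ZMod 9) = 0 := by push_cast; exact h3
  have h6 : ((3 * W : ℕ) : ZMod 9) = 0 := by push_cast; exact h4
  rw [ZMod.natCast_eq_zero_iff] at h5 h6
  omega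

theorem three_case {t m a b k : ℕ} (ht : t ≠ 0) (hm : m.Prime) (hm3 : m ≠ 3)
    (hab : Nat.Coprime a b)
    (h : 3 ^ k ∣ a ^ (4 * t) + m ^ t * a ^ (2 * t) * b ^ (2 * t) + m ^ (2 * t) * b ^ (4 * t)) :
    k ≤ 1 := by
  by_contra hk
  have h9 : 9 ∣ a ^ (4 * t) + m ^ t * a ^ (2 * t) * b ^ (2 * t) + m ^ (2 * t) * b ^ (4 * t) :=
    dvd_trans (show 3 ^ 2 ∣ 3 ^ k from pow_dvd_pow 3 (show 2 ≤ k by omega)) h
  have e : a ^ (4 * t) + m ^ t * a ^ (2 * t) * b ^ (2 * t) + m ^ (2 * t) * b ^ (4 * t) =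
      (a ^ (2 * t)) ^ 2 + a ^ (2 * t) * (m ^ t * b ^ (2 * t)) + (m ^ t * b ^ (2 * t)) ^ 2 := by
    rw [show 4 * t = 2 * t * 2 by ring, pow_mul a, pow_mul b (2 * t) 2,
      mul_pow, ← pow_mul m t 2, mul_comm t 2]
    ring
  rw [e] at h9
  obtain ⟨h1, h2⟩ := nine_dvd h9
  have ha : 3 ∣ a := Nat.prime_three.dvd_of_dvd_pow h1
  have hb : 3 ∣ b := by
    rcases (Nat.prime_three.dvd_mul).1 h2 with h4 | h4
    · exact absurd ((Nat.prime_dvd_prime_iff_eq Nat.prime_three hm).1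
        (Nat.prime_three.dvd_of_dvd_pow h4)).symm hm3
    · exact Nat.prime_three.dvd_of_dvd_pow h4
  have := Nat.dvd_gcd ha hb
  rw [hab] at this
  omega

theorem m_case {t m a b k : ℕ} (ht : t ≠ 0) (hm : m.Prime) (hab : Nat.Coprime a b)
    (h : m ^ k ∣ a ^ (4 * t) + m ^ t * a ^ (2 * t) * b ^ (2 * t) + m ^ (2 * t) * b ^ (4 * t)) :
    k ≤ 2 * t := by
  by_contra hk
  have h1 : m ^ (2 * t + 1) ∣
      a ^ (4 * t) + m ^ t * a ^ (2 * t) * b ^ (2 * t) + m ^ (2 * t) * b ^ (4 * t) :=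
    dvd_trans (pow_dvd_pow m (by omega)) h
  have ha : m ∣ a := by
    have h2 : m ∣ a ^ (4 * t) + m ^ t * a ^ (2 * t) * b ^ (2 * t) + m ^ (2 * t) * b ^ (4 * t) :=
      dvd_trans (dvd_pow_self m (by omega)) h1
    have h3 : m ∣ m ^ t * a ^ (2 * t) * b ^ (2 * t) :=
      Dvd.dvd.mul_right (Dvd.dvd.mul_right (dvd_pow_self m ht) _) _
    have h4 : m ∣ m ^ (2 * t) * b ^ (4 * t) := Dvd.dvd.mul_right (dvd_pow_self m (by omega)) _
    have h5 : m ∣ a ^ (4 * t) := by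
      rw [Nat.dvd_add_left h4, Nat.dvd_add_left h3] at h2
      exact h2
    exact hm.dvd_of_dvd_pow h5
  have hb : ¬ m ∣ b := by
    intro hb
    have := Nat.dvd_gcd ha hb
    rw [hab] at this
    exact hm.one_lt.ne' (Nat.dvd_one.1 this)
  obtain ⟨c, rfl⟩ := ha
  have e : (m * c) ^ (4 * t) + m ^ t * (m * c) ^ (2 * t) * b ^ (2 * t) +
      m ^ (2 * t) * b ^ (4 * t) =
      m ^ (2 * t) * (m ^ (2 * t) * c ^ (4 * t) + m ^ t * c ^ (2 * t) * b ^ (2 * t) +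
        b ^ (4 * t)) := by
    rw [mul_pow, mul_pow, show 4 * t = 2 * t + 2 * t by ring, pow_add m]
    ring
  rw [e, pow_succ, Nat.mul_dvd_mul_iff_left (pow_pos hm.pos _)] at h1
  have h3 : m ∣ m ^ t * c ^ (2 * t) * b ^ (2 * t) :=
    Dvd.dvd.mul_right (Dvd.dvd.mul_right (dvd_pow_self m ht) _) _
  have h4 : m ∣ m ^ (2 * t) * c ^ (4 * t) := Dvd.dvd.mul_right (dvd_pow_self m (by omega)) _
  rw [Nat.dvd_add_right (dvd_add h4 h3)] at h1
  exact hb (hm.dvd_of_dvd_pow h1)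

/-- the form divides `3 m^(2t) Y` -/
theorem form_dvd {kappa m : ℕ} (hk : 1 ≤ kappa) (hm : m.Prime) (hm3 : m ≠ 3) {x Y v : ℚ}
    (h : v * (x ^ (4 * 3 ^ (kappa - 1)) + (m : ℚ) ^ 3 ^ (kappa - 1) * x ^ (2 * 3 ^ (kappa - 1)) +
      (m : ℚ) ^ (2 * 3 ^ (kappa - 1))) = Y)
    (hv : ∀ q : ℕ, q.Prime → q ∣ v.den → q ≠ 3 → q ≠ m →
      ¬ (q ≡ 1 [MOD 3 ^ kappa] ∧ IsSquare (m : ZMod q))) :
    x.num.natAbs ^ (4 * 3 ^ (kappa - 1)) + m ^ 3 ^ (kappa - 1) *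
      x.num.natAbs ^ (2 * 3 ^ (kappa - 1)) * x.den ^ (2 * 3 ^ (kappa - 1)) +
      m ^ (2 * 3 ^ (kappa - 1)) * x.den ^ (4 * 3 ^ (kappa - 1)) ∣
      3 * m ^ (2 * 3 ^ (kappa - 1)) * Y.num.natAbs := by
  have hab : Nat.Coprime x.num.natAbs x.den := x.reduced
  have hpf := @prime_factor kappa m
  set t := 3 ^ (kappa - 1) with ht
  have ht0 : t ≠ 0 := by positivity
  set a := x.num.natAbs with ha
  set b := x.den with hb
  have hb0 : (b : ℚ) ≠ 0 := by exact_mod_cast x.den_nz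
  have hx : x = (x.num : ℚ) / (b : ℚ) := (Rat.num_div_den x).symm
  have hnum : ∀ e : ℕ, (x.num : ℚ) ^ (2 * e) = (a : ℚ) ^ (2 * e) := by
    intro e
    rw [pow_mul, pow_mul]
    congr 1
    have : ((x.num.natAbs : ℤ) : ℚ) ^ 2 = (x.num : ℚ) ^ 2 := by
      exact_mod_cast Int.natAbs_sq x.num
    rw [← this]
    simp [ha]
  -- the integral relation
  have hrel : v * ((a ^ (4 * t) + m ^ t * a ^ (2 * t) * b ^ (2 * t) +
      m ^ (2 * t) * b ^ (4 * t) : ℕ) : ℚ) = Y * ((b ^ (4 * t) : ℕ) : ℚ) := by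
    rw [← h]
    push_cast
    have e1 : x ^ (4 * t) * (b : ℚ) ^ (4 * t) = (a : ℚ) ^ (4 * t) := by
      rw [show 4 * t = 2 * (2 * t) by ring, ← hnum, ← mul_pow]
      congr 1
      exact Rat.mul_den_eq_num x
    have e2 : x ^ (2 * t) * (b : ℚ) ^ (2 * t) = (a : ℚ) ^ (2 * t) := by
      rw [← hnum, ← mul_pow]
      congr 1
      exact Rat.mul_den_eq_num x
    have e3 : (b : ℚ) ^ (4 * t) = (b : ℚ) ^ (2 * t) * (b : ℚ) ^ (2 * t) := by
      rw [← pow_add]; congr 1; ring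
    rw [mul_assoc v, ← e1, ← e2, add_mul, add_mul, e3]
    ring
  -- in natural numbers
  have hnat : v.num.natAbs * (a ^ (4 * t) + m ^ t * a ^ (2 * t) * b ^ (2 * t) +
      m ^ (2 * t) * b ^ (4 * t)) * Y.den = Y.num.natAbs * b ^ (4 * t) * v.den := by
    have hvd : (v.den : ℚ) ≠ 0 := by exact_mod_cast v.den_nz
    have hYd : (Y.den : ℚ) ≠ 0 := by exact_mod_cast Y.den_nz
    have h1 : (v.num : ℚ) * ((a ^ (4 * t) + m ^ t * a ^ (2 * t) * b ^ (2 * t) +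
        m ^ (2 * t) * b ^ (4 * t) : ℕ) : ℚ) * (Y.den : ℚ) =
        (Y.num : ℚ) * ((b ^ (4 * t) : ℕ) : ℚ) * (v.den : ℚ) := by
      have hv1 : (v.num : ℚ) = v * v.den := (Rat.mul_den_eq_num v).symm
      have hY1 : (Y.num : ℚ) = Y * Y.den := (Rat.mul_den_eq_num Y).symm
      rw [hv1, hY1]
      linear_combination ((v.den : ℚ) * (Y.den : ℚ)) * hrel
    have h2 : v.num * ((a ^ (4 * t) + m ^ t * a ^ (2 * t) * b ^ (2 * t) +
        m ^ (2 * t) * b ^ (4 * t) : ℕ) : ℤ) * (Y.den : ℤ) =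
        Y.num * ((b ^ (4 * t) : ℕ) : ℤ) * (v.den : ℤ) := by exact_mod_cast h1
    have h3 := congrArg Int.natAbs h2
    simpa only [Int.natAbs_mul, Int.natAbs_natCast] using h3
  rw [Nat.dvd_iff_prime_pow_dvd_dvd]
  intro q k hq hqk
  by_cases hq3 : q = 3
  · subst hq3
    have hk1 := three_case ht0 hm hm3 hab hqk
    have : 3 ^ k ∣ 3 ^ 1 := pow_dvd_pow 3 hk1
    rw [mul_assoc]
    exact Dvd.dvd.mul_right (by simpa using this) _
  by_cases hqm : q = m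
  · subst hqm
    have hk1 := m_case ht0 hm hab hqk
    have : q ^ k ∣ q ^ (2 * t) := pow_dvd_pow q hk1
    exact Dvd.dvd.mul_right (Dvd.dvd.mul_left this _) _
  rcases Nat.eq_zero_or_pos k with hk0 | hk0
  · subst hk0; simp
  have hqd : q ∣ a ^ (4 * t) + m ^ t * a ^ (2 * t) * b ^ (2 * t) + m ^ (2 * t) * b ^ (4 * t) :=
    dvd_trans (dvd_pow_self q hk0.ne') hqk
  obtain ⟨hqa, hqb, hq1, hqs⟩ := hpf hk hm hq hq3 hqm hab hqd
  have hqv : ¬ q ∣ v.den := fun h1 => hv q hq h1 hq3 hqm ⟨hq1, hqs⟩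
  have h1 : q ^ k ∣ Y.num.natAbs * b ^ (4 * t) * v.den := by
    rw [← hnat]
    exact Dvd.dvd.mul_right (Dvd.dvd.mul_left hqk _) _
  have c1 : Nat.Coprime (q ^ k) v.den := Nat.Coprime.pow_left _ ((Nat.Prime.coprime_iff_not_dvd hq).2 hqv)
  have c2 : Nat.Coprime (q ^ k) (b ^ (4 * t)) :=
    Nat.Coprime.pow _ _ ((Nat.Prime.coprime_iff_not_dvd hq).2 hqb)
  have h2 := c1.dvd_of_dvd_mul_right h1
  have h3 := c2.dvd_of_dvd_mul_right h2
  exact Dvd.dvd.mul_left h3 _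

/-- the height bound -/
theorem height_bound {kappa m : ℕ} (hk : 1 ≤ kappa) (hm : m.Prime) (hm3 : m ≠ 3) {x Y v : ℚ}
    (hY : Y ≠ 0)
    (h : v * (x ^ (4 * 3 ^ (kappa - 1)) + (m : ℚ) ^ 3 ^ (kappa - 1) * x ^ (2 * 3 ^ (kappa - 1)) +
      (m : ℚ) ^ (2 * 3 ^ (kappa - 1))) = Y)
    (hv : ∀ q : ℕ, q.Prime → q ∣ v.den → q ≠ 3 → q ≠ m →
      ¬ (q ≡ 1 [MOD 3 ^ kappa] ∧ IsSquare (m : ZMod q))) :
    (max x.num.natAbs x.den) ^ (4 * 3 ^ (kappa - 1)) ≤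
      3 * m ^ (2 * 3 ^ (kappa - 1)) * Y.num.natAbs := by
  have h1 := form_dvd hk hm hm3 h hv
  have hYn : 0 < Y.num.natAbs := Int.natAbs_pos.2 (Rat.num_ne_zero.2 hY)
  have h2 := Nat.le_of_dvd (by have := hm.pos; positivity) h1
  refine le_trans ?_ h2
  rcases le_total x.num.natAbs x.den with h3 | h3
  · rw [max_eq_right h3]
    have : 1 ≤ m ^ (2 * 3 ^ (kappa - 1)) := Nat.one_le_pow _ _ hm.pos
    calc x.den ^ (4 * 3 ^ (kappa - 1)) = 1 * x.den ^ (4 * 3 ^ (kappa - 1)) := (one_mul _).symm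
      _ ≤ m ^ (2 * 3 ^ (kappa - 1)) * x.den ^ (4 * 3 ^ (kappa - 1)) :=
        Nat.mul_le_mul_right _ this
      _ ≤ _ := Nat.le_add_left _ _
  · rw [max_eq_left h3, add_assoc]
    exact Nat.le_add_right _ _

/-- a prime which is not a square modulo finitely many given primes -/
theorem exists_m (kappa : ℕ) (hk : 1 ≤ kappa) (Q0 : Finset ℕ) :
    ∃ m : ℕ, m.Prime ∧ m ≠ 3 ∧ ∀ q ∈ Q0, q.Prime → q ≡ 1 [MOD 3 ^ kappa] →
      ¬ IsSquare (m : ZMod q) := by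
  classical
  set Q := Q0.filter (fun q => q.Prime ∧ q ≡ 1 [MOD 3 ^ kappa]) with hQ
  have hQp : ∀ q ∈ Q, q.Prime := fun q hq => (Finset.mem_filter.1 hq).2.1
  have hex : ∀ q : ℕ, q ∈ Q → ∃ a : ℕ, ¬ IsSquare (a : ZMod q) := by
    intro q hq
    haveI : Fact q.Prime := ⟨hQp q hq⟩
    have hq2 : q ≠ 2 := by
      rintro rfl
      have h1 : 2 ≡ 1 [MOD 3 ^ kappa] := (Finset.mem_filter.1 hq).2.2
      have h2 : 2 ≡ 1 [MOD 3] := h1.of_dvd (dvd_pow_self 3 (by omega))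
      exact absurd h2 (by decide)
    obtain ⟨z, hz⟩ := FiniteField.exists_nonsquare (F := ZMod q)
      (by rw [ZMod.ringChar_zmod_n]; exact hq2)
    exact ⟨z.val, by rwa [ZMod.natCast_zmod_val]⟩
  choose! a ha using hex
  have hco : (Q : Set ℕ).Pairwise (Function.onFun Nat.Coprime id) := by
    intro i hi j hj hij
    exact (Nat.coprime_primes (hQp i hi) (hQp j hj)).2 hij
  obtain ⟨k, hkc⟩ := Nat.chineseRemainderOfFinset a id Q (fun i hi => (hQp i hi).ne_zero) hco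
  have hcop : Nat.Coprime k (∏ q ∈ Q, q) := by
    refine Nat.Coprime.prod_right fun q hq => ?_
    rw [Nat.coprime_comm, (hQp q hq).coprime_iff_not_dvd]
    intro hdvd
    apply ha q hq
    have h1 : (k : ZMod q) = (a q : ZMod q) := (ZMod.natCast_eq_natCast_iff _ _ _).2 (hkc q hq)
    rw [← h1, (ZMod.natCast_eq_zero_iff _ q).2 hdvd]
    exact IsSquare.zero
  have hN : (∏ q ∈ Q, q) ≠ 0 := Finset.prod_ne_zero_iff.2 fun q hq => (hQp q hq).ne_zero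
  obtain ⟨m, hm3, hmp, hmk⟩ := Nat.forall_exists_prime_gt_and_modEq 3 hN hcop
  refine ⟨m, hmp, hm3.ne', fun q hq hqp hq1 => ?_⟩
  have hqQ : q ∈ Q := Finset.mem_filter.2 ⟨hq, hqp, hq1⟩
  have h1 : m ≡ k [MOD q] := hmk.of_dvd (Finset.dvd_prod_of_mem _ hqQ)
  have h2 : (m : ZMod q) = (a q : ZMod q) :=
    (ZMod.natCast_eq_natCast_iff _ _ _).2 (h1.trans (hkc q hqQ))
  rw [h2]
  exact ha q hqQ

end Vale.Agent.P027.HB955
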