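import Mathlib

set_option linter.all false

/-!
Cyclotomic polynomials of `p`-power index are irreducible over fields embedded in `ℚ_p`.
-/

namespace Vale.Agent.P027.T3

open Polynomial

lemma irr_zp (p : ℕ) [hp : Fact p.Prime] (k : ℕ) :
    Irreducible (cyclotomic (p ^ (k + 1)) ℤ_[p]) := by
  have h1 := cyclotomic_prime_pow_comp_X_add_one_isEisensteinAt p k
  set g : ℤ[X] := (cyclotomic (p ^ (k + 1)) ℤ).comp (X + 1) with hg
  have hmonic : g.Monic := by
    rw [hg, show (X + 1 : ℤ[X]) = X + C 1 by simp]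
    refine (cyclotomic.monic _ ℤ).comp (monic_X_add_C 1) fun h => ?_
    rw [natDegree_X_add_C] at h
    exact zero_ne_one h.symm
  have hdeg : 0 < g.natDegree := by
    rw [hg, natDegree_comp, show (X + 1 : ℤ[X]) = X + C 1 by simp, natDegree_X_add_C, mul_one,
      natDegree_cyclotomic]
    exact Nat.totient_pos.2 (pow_pos hp.out.pos _)
  have hmap : g.map (Int.castRingHom ℤ_[p]) =
      (cyclotomic (p ^ (k + 1)) ℤ_[p]).comp (X + C 1) := by
    rw [hg, map_comp, map_cyclotomic]
    simp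
  have hP : (Ideal.span {(p : ℤ_[p])}).IsPrime := by
    rw [Ideal.span_singleton_prime (by exact_mod_cast hp.out.ne_zero)]
    exact PadicInt.prime_p
  have hE : (g.map (Int.castRingHom ℤ_[p])).IsEisensteinAt (Ideal.span {(p : ℤ_[p])}) := by
    refine Monic.isEisensteinAt_of_mem_of_notMem (hmonic.map _) hP.ne_top ?_ ?_
    · intro n hn
      rw [hmonic.natDegree_map] at hn
      have h2 := h1.mem hn
      rw [Ideal.submodule_span_eq, Ideal.mem_span_singleton] at h2
      rw [coeff_map, Ideal.mem_span_singleton]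
      obtain ⟨c, hc⟩ := h2
      rw [hc]
      exact ⟨(c : ℤ_[p]), by simp⟩
    · intro h
      apply h1.notMem
      rw [Ideal.submodule_span_eq, Ideal.span_singleton_pow, Ideal.mem_span_singleton]
      rw [coeff_map, Ideal.span_singleton_pow, Ideal.mem_span_singleton] at h
      have h3 : ((p : ℤ_[p]) ^ 2) ∣ ((g.coeff 0 : ℤ) : ℤ_[p]) := h
      have h4 : ‖((g.coeff 0 : ℤ) : ℤ_[p])‖ ≤ (p : ℝ) ^ (-(2 : ℕ) : ℤ) := by
        rw [PadicInt.norm_le_pow_iff_mem_span_pow, Ideal.mem_span_singleton]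
        exact h3
      have h5 := PadicInt.norm_int_le_pow_iff_dvd.1 h4
      exact_mod_cast h5
  have h6 := hE.irreducible hP (hmonic.map _).isPrimitive (by rw [hmonic.natDegree_map]; exact hdeg)
  rw [hmap] at h6
  have h7 : (cyclotomic (p ^ (k + 1)) ℤ_[p]).comp (X + C 1) =
      (algEquivAevalXAddC (1 : ℤ_[p])) (cyclotomic (p ^ (k + 1)) ℤ_[p]) := by
    simp [comp, aeval_def, algEquivAevalXAddC]
  rw [h7] at h6
  exact (MulEquiv.irreducible_iff (algEquivAevalXAddC (1 : ℤ_[p]))).1 h6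

lemma irr_qp (p : ℕ) [hp : Fact p.Prime] (k : ℕ) :
    Irreducible (cyclotomic (p ^ (k + 1)) ℚ_[p]) := by
  have h := (cyclotomic.monic (p ^ (k + 1)) ℤ_[p]).irreducible_iff_irreducible_map_fraction_map
    (K := ℚ_[p])
  rw [map_cyclotomic] at h
  exact h.1 (irr_zp p k)

theorem irr_of_emb {p : ℕ} [hp : Fact p.Prime] {K : Type*} [Field K] (φ : K →+* ℚ_[p]) (k : ℕ) :
    Irreducible (cyclotomic (p ^ (k + 1)) K) := by
  apply (cyclotomic.monic (p ^ (k + 1)) K).irreducible_of_irreducible_map φ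
  rw [map_cyclotomic]
  exact irr_qp p k

end Vale.Agent.P027.T3
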