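import Vale.Agent.P027.R3.H955.PowProd

set_option linter.all false

/-!
The order of `β ^ 2` at a captured prime.
-/

namespace Vale.Agent.P027.T3

open Vale.Agent.P027 Module IsDedekindDomain NumberField
open Vale.Agent.P027.R2.H955

section residue

variable {K : Type} [Field K] [NumberField K]

/-- reduction of a unit modulo `P` -/
lemma exists_residue5 (P : HeightOneSpectrum (𝓞 K)) {b : K} (hb : b ≠ 0) (hv : vv P b = 0) :
    ∃ x : 𝓞 K ⧸ P.asIdeal, ∀ j : ℕ, P.valuation K (b ^ j - 1) < 1 ↔ x ^ j = 1 := by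
  have hPm : P.asIdeal.IsMaximal := P.isMaximal
  let := Ideal.Quotient.field P.asIdeal
  obtain ⟨n, d, hnd⟩ := P.exists_primeCompl_mul_eq_of_integer b ((vv_nonneg_iff P b).1 hv.ge)
  have hd : (d : 𝓞 K) ∉ P.asIdeal := d.2
  have hd0 : (d : 𝓞 K) ≠ 0 := by
    intro h0
    apply hd
    rw [h0]
    exact P.asIdeal.zero_mem
  have hd0' : algebraMap (𝓞 K) K (d : 𝓞 K) ≠ 0 :=
    (map_ne_zero_iff _ (FaithfulSMul.algebraMap_injective (𝓞 K) K)).2 hd0
  have hdq : Ideal.Quotient.mk P.asIdeal (d : 𝓞 K) ≠ 0 := by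
    rwa [Ne, Ideal.Quotient.eq_zero_iff_mem]
  refine ⟨Ideal.Quotient.mk P.asIdeal n / Ideal.Quotient.mk P.asIdeal (d : 𝓞 K), fun j => ?_⟩
  have e : b ^ j - 1 = algebraMap (𝓞 K) K (n ^ j - (d : 𝓞 K) ^ j) /
      algebraMap (𝓞 K) K ((d : 𝓞 K) ^ j) := by
    rw [map_sub, map_pow, map_pow, ← hnd, mul_pow]
    have : algebraMap (𝓞 K) K (d : 𝓞 K) ^ j ≠ 0 := pow_ne_zero _ hd0'
    rw [eq_div_iff this]
    ring
  have hdj : P.valuation K (algebraMap (𝓞 K) K ((d : 𝓞 K) ^ j)) = 1 := by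
    rw [HeightOneSpectrum.valuation_eq_one_iff_notMem]
    intro h
    exact hd (hPm.isPrime.mem_of_pow_mem _ h)
  rw [e, map_div₀, hdj, div_one, div_pow, div_eq_one_iff_eq (pow_ne_zero _ hdq), ← map_pow,
    ← map_pow, ← sub_eq_zero, ← map_sub, Ideal.Quotient.eq_zero_iff_mem]
  exact P.valuation_lt_one_iff_mem _

lemma absNorm_le5 (P : HeightOneSpectrum (𝓞 K)) {q : ℕ} (hq : q.Prime)
    (hv : (q : 𝓞 K) ∈ P.asIdeal) : Ideal.absNorm P.asIdeal ≤ q ^ Module.finrank ℚ K := by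
  have h1 : P.asIdeal ∣ Ideal.span {(q : 𝓞 K)} := by rwa [Ideal.dvd_span_singleton]
  have h2 := map_dvd Ideal.absNorm h1
  rw [Ideal.absNorm_span_singleton] at h2
  have h3 : (Algebra.norm ℤ (q : 𝓞 K)).natAbs = q ^ Module.finrank ℚ K := by
    have h4 : (q : 𝓞 K) = algebraMap ℤ (𝓞 K) q := by simp
    rw [h4, Algebra.norm_algebraMap, NumberField.RingOfIntegers.rank K, Int.natAbs_pow,
      Int.natAbs_natCast]
  rw [h3] at h2
  exact Nat.le_of_dvd (Nat.pow_pos hq.pos) h2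

lemma val_natCast5 (P : HeightOneSpectrum (𝓞 K)) (n : ℕ) :
    P.valuation K (n : K) < 1 ↔ (n : 𝓞 K) ∈ P.asIdeal := by
  have h := P.valuation_lt_one_iff_mem (K := K) (n : 𝓞 K)
  have e : algebraMap (𝓞 K) K (n : 𝓞 K) = (n : K) := map_natCast _ _
  rw [← e]
  exact h

lemma not_both5 (P : HeightOneSpectrum (𝓞 K)) {p q : ℕ} (hp : p.Prime) (hq : q.Prime)
    (hqp : q ≠ p) (h : (q : 𝓞 K) ∈ P.asIdeal) : (p : 𝓞 K) ∉ P.asIdeal := by
  intro h2
  have hc : Nat.Coprime q p := (Nat.coprime_primes hq hp).2 hqp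
  have h3 : IsCoprime (q : ℤ) p := Nat.isCoprime_iff_coprime.2 hc
  obtain ⟨u, v, huv⟩ := h3
  apply P.isMaximal.ne_top
  rw [Ideal.eq_top_iff_one]
  have h8 : (1 : 𝓞 K) = (u : 𝓞 K) * ((q : ℤ) : 𝓞 K) + (v : 𝓞 K) * ((p : ℤ) : 𝓞 K) := by
    exact_mod_cast congrArg (fun z : ℤ => (z : 𝓞 K)) huv.symm
  rw [h8]
  refine P.asIdeal.add_mem (P.asIdeal.mul_mem_left _ ?_) (P.asIdeal.mul_mem_left _ ?_)
  · simpa using h
  · simpa using h2

end residue

variable {p : ℕ} [hp : Fact p.Prime] {K : Type} [Field K] [NumberField K]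
  {D : Fld p K} {β : K} {V : ℕ}

/-- N6': the order at a captured prime -/
theorem order (h : Base D β V) {w q : ℕ} (hq : q.Prime)
    (hqp : q ≠ p) {v : HeightOneSpectrum (𝓞 K)} (hv : v.valuation K (q : K) < 1)
    (hk : v.valuation K (kap p (β ^ (p ^ w))) < 1) :
    (∀ j : ℕ, v.valuation K (β ^ (2 * j) - 1) < 1 ↔ p ^ (w + 1) ∣ j) ∧
      p ^ (w + 1) < q ^ (2 * D.m) := by
  have hPm : v.asIdeal.IsMaximal := v.isMaximal
  have hqv := (val_natCast5 v q).1 hv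
  have hpv := not_both5 v hp.out hq hqp hqv
  have hpv' : ¬ v.valuation K (p : K) < 1 := fun h1 => hpv ((val_natCast5 v p).1 h1)
  have hb0 : β ^ 2 ≠ 0 := pow_ne_zero 2 h.ne
  have hvb : vv v (β ^ 2) = 0 := by rw [vv_pow, h.vv_eq5 v hpv, mul_zero]
  obtain ⟨x, hx⟩ := exists_residue5 v hb0 hvb
  -- `x ^ (p ^ (w + 1)) = 1`
  have hgeom : kap p (β ^ (p ^ w)) * ((β ^ 2) ^ (p ^ w) - 1) = (β ^ 2) ^ (p ^ (w + 1)) - 1 := by
    have h1 := geom_sum_mul ((β ^ 2) ^ (p ^ w)) p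
    have h2 : kap p (β ^ (p ^ w)) = ∑ i ∈ Finset.range p, ((β ^ 2) ^ (p ^ w)) ^ i := by
      unfold kap
      refine Finset.sum_congr rfl fun i _ => ?_
      rw [← pow_mul, ← pow_mul, ← pow_mul]
      congr 1
      ring
    rw [h2, h1, ← pow_mul, pow_succ p w]
  have hle : v.valuation K ((β ^ 2) ^ (p ^ w) - 1) ≤ 1 := by
    refine (Valuation.map_sub _ _ _).trans (max_le ?_ ?_)
    · rw [← vv_nonneg_iff, vv_pow, hvb, mul_zero]
    · rw [map_one]
  have hx1 : x ^ p ^ (w + 1) = 1 := by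
    rw [← hx, ← hgeom, map_mul]
    exact mul_lt_one_of_lt_of_le hk hle
  have hx2 : ¬ x ^ p ^ w = 1 := by
    intro h1
    rw [← hx] at h1
    apply hpv'
    have h2 : ∀ i : ℕ, v.valuation K (((β ^ 2) ^ (p ^ w)) ^ i - 1) < 1 := by
      intro i
      rw [← mul_geom_sum, map_mul]
      refine mul_lt_one_of_lt_of_le h1 ?_
      apply Valuation.map_sum_le
      intro j _
      rw [← vv_nonneg_iff, vv_pow, vv_pow, hvb, mul_zero, mul_zero]
    have h3 : (p : K) = kap p (β ^ (p ^ w)) -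
        ∑ i ∈ Finset.range p, (((β ^ 2) ^ (p ^ w)) ^ i - 1) := by
      unfold kap
      rw [Finset.sum_sub_distrib]
      simp only [Finset.sum_const, Finset.card_range, nsmul_eq_mul, mul_one]
      have h4 : ∑ i ∈ Finset.range p, (β ^ p ^ w) ^ (2 * i) =
          ∑ i ∈ Finset.range p, ((β ^ 2) ^ p ^ w) ^ i := by
        refine Finset.sum_congr rfl fun i _ => ?_
        rw [← pow_mul, ← pow_mul, ← pow_mul]
        congr 1
        ring
      rw [h4]
      ring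
    rw [h3]
    refine lt_of_le_of_lt (Valuation.map_sub _ _ _) (max_lt hk ?_)
    exact Valuation.map_sum_lt _ one_ne_zero fun i _ => h2 i
  have ho := orderOf_eq_prime_pow hx2 hx1
  constructor
  · intro j
    rw [pow_mul, hx, ← ho, orderOf_dvd_iff_pow_eq_one]
  · let := Ideal.Quotient.field v.asIdeal
    have : Finite (𝓞 K ⧸ v.asIdeal) := Ideal.finiteQuotientOfFreeOfNeBot v.asIdeal v.ne_bot
    have := Fintype.ofFinite (𝓞 K ⧸ v.asIdeal)
    have h1 : Ideal.absNorm v.asIdeal = Fintype.card (𝓞 K ⧸ v.asIdeal) := by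
      rw [Ideal.absNorm_apply, Submodule.cardQuot_apply, Nat.card_eq_fintype_card]
    have hx0 : x ≠ 0 := by
      rintro rfl
      rw [zero_pow (pow_ne_zero _ hp.out.ne_zero)] at hx1
      exact zero_ne_one hx1
    have h2 : p ^ (w + 1) ∣ Fintype.card (𝓞 K ⧸ v.asIdeal) - 1 := by
      rw [← ho]
      exact orderOf_dvd_of_pow_eq_one (FiniteField.pow_card_sub_one_eq_one _ hx0)
    have h3 : 1 < Fintype.card (𝓞 K ⧸ v.asIdeal) := Fintype.one_lt_card
    have h4 := Nat.le_of_dvd (by omega) h2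
    have h5 := absNorm_le5 v hq hqv
    rw [D.card_eq5, h1] at h5
    omega

end Vale.Agent.P027.T3
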