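import Vale.Agent.P027.R3.H250.Defs
import Vale.Agent.P027.R3.H955.Irr
import Vale.Agent.P027.R2.H18.LawK
import Vale.Agent.P027.R2.H955.PlacesNF

set_option linter.all false

/-!
Powers of `p` and products detected by norms (assembly of the norm test, the law and the counting).
-/

namespace Vale.Agent.P027.T3

open Vale.Agent.P027 Module IsDedekindDomain NumberField Polynomial
open Vale.Agent.P027.R2.H955

section NTsec

variable {K : Type} [Field K] [NumberField K] {p : ℕ} [hp : Fact p.Prime]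

lemma NT.mul5 {e : ℕ} {x y : K} (hx : NT K p e x) (hy : NT K p e y) : NT K p e (x * y) := by
  obtain ⟨a, rfl⟩ := hx
  obtain ⟨b, rfl⟩ := hy
  exact ⟨a * b, by rw [map_mul]⟩

lemma NT.one5 (e : ℕ) : NT K p e (1 : K) := ⟨1, by rw [map_one]⟩

lemma NT.inv5 {e : ℕ} {x : K} (hx : NT K p e x) : NT K p e x⁻¹ := by
  obtain ⟨a, rfl⟩ := hx
  by_cases ha : a = 0
  · have : NeZero (p ^ e) := ⟨pow_ne_zero _ hp.out.ne_zero⟩
    have := IsCyclotomicExtension.finiteDimensional {p ^ e} K (CyclotomicField (p ^ e) K)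
    refine ⟨0, ?_⟩
    rw [ha, Algebra.norm_zero, inv_zero]
  · refine ⟨a⁻¹, ?_⟩
    apply eq_inv_of_mul_eq_one_left
    rw [← map_mul, inv_mul_cancel₀ ha, map_one]

lemma NT.div5 {e : ℕ} {x y : K} (hx : NT K p e x) (hy : NT K p e y) : NT K p e (x / y) := by
  rw [div_eq_mul_inv]
  exact hx.mul5 hy.inv5

/-- the values of the cyclotomic polynomial are norms -/
lemma NT.eval5 (φ : K →+* ℚ_[p]) (k : ℕ) (B : K) :
    NT K p (k + 1) ((cyclotomic (p ^ (k + 1)) K).eval B) := by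
  have : NeZero (p ^ (k + 1)) := ⟨pow_ne_zero _ hp.out.ne_zero⟩
  have h0 : p ^ (k + 1) ≠ 0 := NeZero.ne _
  obtain ⟨η, hη⟩ := IsCyclotomicExtension.exists_isPrimitiveRoot (S := {p ^ (k + 1)}) K
    (CyclotomicField (p ^ (k + 1)) K) rfl h0
  exact ⟨_, norm_sub_root hη (irr_of_emb φ k) B⟩

lemma geom_cyc5 (k : ℕ) (B : K) :
    (cyclotomic (p ^ (k + 1)) K).eval B * (B ^ p ^ k - 1) = B ^ p ^ (k + 1) - 1 := by
  have h := cyclotomic_prime_pow_mul_X_pow_sub_one K p k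
  have h2 := congrArg (Polynomial.eval B) h
  simpa using h2

lemma NT.step_sub5 (φ : K →+* ℚ_[p]) (k : ℕ) (A : K) {N : ℕ} (hN : p ^ k ∣ N)
    (hA : A ^ N ≠ 1) : NT K p (k + 1) ((A ^ (p * N) - 1) / (A ^ N - 1)) := by
  obtain ⟨c, rfl⟩ := hN
  have h := geom_cyc5 (p := p) k (A ^ c)
  rw [← pow_mul, ← pow_mul] at h
  have e1 : c * p ^ k = p ^ k * c := by ring
  have e2 : c * p ^ (k + 1) = p * (p ^ k * c) := by ring
  rw [e1, e2] at h
  rw [← h, mul_div_assoc, div_self (sub_ne_zero.2 hA), mul_one]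
  exact NT.eval5 φ k _

lemma NT.step_add5 (φ : K →+* ℚ_[p]) (hp2 : p ≠ 2) (k : ℕ) (A : K) {N : ℕ} (hN : p ^ k ∣ N)
    (hA : A ^ N ≠ -1) : NT K p (k + 1) ((A ^ (p * N) + 1) / (A ^ N + 1)) := by
  obtain ⟨c, rfl⟩ := hN
  have hodd : Odd p := hp.out.odd_of_ne_two hp2
  have h := geom_cyc5 (p := p) k (-(A ^ c))
  rw [(hodd.pow (n := k)).neg_pow, (hodd.pow (n := k + 1)).neg_pow, ← pow_mul, ← pow_mul] at h
  have e1 : c * p ^ k = p ^ k * c := by ring
  have e2 : c * p ^ (k + 1) = p * (p ^ k * c) := by ring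
  rw [e1, e2] at h
  have h2 : A ^ (p * (p ^ k * c)) + 1 =
      (cyclotomic (p ^ (k + 1)) K).eval (-(A ^ c)) * (A ^ (p ^ k * c) + 1) := by
    linear_combination h
  have hA' : A ^ (p ^ k * c) + 1 ≠ 0 := fun h0 => hA (eq_neg_of_add_eq_zero_left h0)
  rw [h2, mul_div_assoc, div_self hA', mul_one]
  exact NT.eval5 φ k _

/-- dvd from the norm test -/
lemma NT.dvd5 {e : ℕ} (he : 1 ≤ e) {x : K} (h : NT K p e x) (i : (placesNF K p).I) :
    ((ff (p ^ e) i.1 : ℕ) : ℤ) ∣ (placesNF K p).v i x := by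
  obtain ⟨y, rfl⟩ := h
  have : NeZero (p ^ e) := ⟨pow_ne_zero _ hp.out.ne_zero⟩
  have h0 : p ^ e ≠ 0 := NeZero.ne _
  obtain ⟨η, hη⟩ := IsCyclotomicExtension.exists_isPrimitiveRoot (S := {p ^ e}) K
    (CyclotomicField (p ^ e) K) rfl h0
  have : CharZero (CyclotomicField (p ^ e) K) :=
    charZero_of_injective_algebraMap (algebraMap K _).injective
  have : FiniteDimensional K (CyclotomicField (p ^ e) K) :=
    IsCyclotomicExtension.finiteDimensional {p ^ e} K _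
  have : FiniteDimensional ℚ (CyclotomicField (p ^ e) K) := FiniteDimensional.trans ℚ K _
  have : NumberField (CyclotomicField (p ^ e) K) := { }
  exact dvd_vv_norm hp.out he hη i.1 i.2 y

end NTsec

section base

variable {p : ℕ} [hp : Fact p.Prime] {K : Type} [Field K] [NumberField K]
  {D : Fld p K} {β : K} {V : ℕ}

lemma p_gt_one5 : (1 : ℝ) < p := by exact_mod_cast hp.out.one_lt

lemma tau_eq5 (β : K) (i : ℕ) : tau β i = TD.tau (β ^ 2) i := by
  unfold tau TD.tau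
  rw [pow_mul]

lemma Base.pow_ne5 (h : Base D β V) {n : ℕ} (hn : 1 ≤ n) : β ^ n ≠ 1 := by
  intro h1
  have h2 := congrArg (fun x => ‖D.φ x‖) h1
  simp only [map_pow, norm_pow, map_one, norm_one, h.val] at h2
  have h3 : (p : ℝ) ^ (-(V : ℤ)) < 1 := by
    apply zpow_lt_one_of_neg₀ p_gt_one5
    have := h.V_pos
    omega
  have h4 : ((p : ℝ) ^ (-(V : ℤ))) ^ n < 1 :=
    pow_lt_one₀ (by positivity) h3 (by omega)
  exact h4.ne h2

lemma vv_p5 (P : HeightOneSpectrum (𝓞 K)) (hP : (p : 𝓞 K) ∉ P.asIdeal) : vv P (p : K) = 0 := by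
  have h1 := vv_int_nonneg P (p : 𝓞 K)
  have h2 := (vv_int_pos_iff P (a := (p : 𝓞 K)) (by exact_mod_cast hp.out.ne_zero)).not.2 hP
  have h3 : ((p : 𝓞 K) : K) = (p : K) := by simp
  rw [h3] at h1 h2
  omega

lemma vv_nonneg_of_out5 {x : K} (hx : x ≠ 0) (h : Out p x) (P : HeightOneSpectrum (𝓞 K))
    (hP : (p : 𝓞 K) ∉ P.asIdeal) : 0 ≤ vv P x := by
  obtain ⟨k, hk⟩ := h
  have hp0 : (p : K) ≠ 0 := by exact_mod_cast hp.out.ne_zero
  have h1 : 0 ≤ vv P ((p : K) ^ k * x) := vv_int_nonneg P ⟨_, hk⟩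
  rw [vv_mul P (pow_ne_zero _ hp0) hx, vv_pow, vv_p5 P hP] at h1
  omega

lemma Base.vv_eq5 (h : Base D β V) (P : HeightOneSpectrum (𝓞 K))
    (hP : (p : 𝓞 K) ∉ P.asIdeal) : vv P β = 0 := by
  have h1 := vv_nonneg_of_out5 h.ne h.out P hP
  have h2 := vv_nonneg_of_out5 (inv_ne_zero h.ne) h.out_inv P hP
  rw [vv_inv] at h2
  omega

lemma Fld.card_eq5 (D : Fld p K) : Module.finrank ℚ K = 2 * D.m := by
  rw [Module.finrank_eq_card_basis D.bas, Fintype.card_fin]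

lemma Fld.bij5 (D : Fld p K) :
    Function.Bijective (fun i : Fin (2 * D.m) => D.σ ^ (i : ℕ)) := by
  classical
  have := D.gal
  have hsurj : Function.Surjective (fun i : Fin (2 * D.m) => D.σ ^ (i : ℕ)) := by
    intro τ
    obtain ⟨i, hi, h⟩ := D.gen τ
    exact ⟨⟨i, hi⟩, h.symm⟩
  rw [Fintype.bijective_iff_surjective_and_card]
  refine ⟨hsurj, ?_⟩
  rw [Fintype.card_fin, ← D.card_eq5, ← IsGalois.card_aut_eq_finrank ℚ K, Nat.card_eq_fintype_card]

/-- the data of the law -/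
noncomputable def lawData5 (h : Base D β V) (hp12 : p % 12 = 7) : TD.LawData K where
  P := placesNF K p
  A := β ^ 2
  p := p
  c := Module.finrank ℚ K
  f := fun i => ff (p ^ (2 * V + 1)) i.1
  hp := hp.out
  hp2 := by rintro rfl; norm_num at hp12
  hA := pow_ne_zero 2 h.ne
  hA1 := fun n hn => by rw [← pow_mul]; exact h.pow_ne5 (by omega)
  hv := fun i => by
    change vv i.1 (β ^ 2) = 0
    rw [vv_pow, h.vv_eq5 i.1 i.2, mul_zero]
  hm := fun i => by
    apply placesNF_order p i (pow_ne_zero 2 h.ne)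
    change vv i.1 (β ^ 2) = 0
    rw [vv_pow, h.vv_eq5 i.1 i.2, mul_zero]
  hr := placesNF_r_ne p
  hc := placesNF_card p
  law := by
    have hV := h.V_pos
    have hp1 := p_gt_one5 (p := p)
    have hgal := D.gal
    have hm : 0 < D.m := D.odd.pos
    refine TD.law_of_norm (p := p) (by rintro rfl; norm_num at hp12) (placesNF K p) (β ^ 2) _
      (fun i => D.φ.comp ((D.σ ^ i : K ≃ₐ[ℚ] K) : K →+* K)) (m := D.m) (V := 2 * V) hm
      (by omega) (pow_ne_zero 2 h.ne)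
      (fun n hn => by rw [← pow_mul]; exact h.pow_ne5 (by omega)) ?_ ?_ ?_ ?_
    · intro i _
      change D.φ ((D.σ ^ (D.m + i)) (β ^ 2)) = (D.φ ((D.σ ^ i) (β ^ 2)))⁻¹
      rw [add_comm, pow_add, AlgEquiv.mul_apply, map_pow, h.conj, inv_pow, map_inv₀, map_inv₀]
    · left
      change ‖D.φ ((D.σ ^ 0) (β ^ 2))‖ = _
      rw [pow_zero, AlgEquiv.one_apply, map_pow, norm_pow, h.val, ← zpow_natCast, ← zpow_mul]
      congr 1
      push_cast
      ring
    · intro i h0 him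
      change ‖D.φ ((D.σ ^ i) (β ^ 2))‖ ≤ _ ∨ _ ≤ ‖D.φ ((D.σ ^ i) (β ^ 2))‖
      rw [map_pow, map_pow, norm_pow]
      rcases h.val' i (by omega) (by omega) (by omega) with h1 | h1
      · left
        calc ‖D.φ ((D.σ ^ i) β)‖ ^ 2 ≤ ((p : ℝ) ^ (-(2 * V : ℤ))) ^ 2 :=
              pow_le_pow_left₀ (norm_nonneg _) h1 2
          _ = (p : ℝ) ^ (-(4 * V : ℤ)) := by
              rw [← zpow_natCast, ← zpow_mul]; congr 1; push_cast; ring
          _ ≤ (p : ℝ) ^ (-(((2 * V : ℕ) : ℤ) + 1)) := by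
              apply zpow_le_zpow_right₀ hp1.le
              push_cast
              omega
      · right
        calc (p : ℝ) ^ (((2 * V : ℕ) : ℤ) + 1) ≤ (p : ℝ) ^ (4 * V : ℤ) := by
              apply zpow_le_zpow_right₀ hp1.le
              push_cast
              omega
          _ = ((p : ℝ) ^ (2 * V : ℤ)) ^ 2 := by
              rw [← zpow_natCast ((p : ℝ) ^ (2 * V : ℤ)), ← zpow_mul]; congr 1; push_cast; ring
          _ ≤ ‖D.φ ((D.σ ^ i) β)‖ ^ 2 := pow_le_pow_left₀ (by positivity) h1 2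
    · intro x hx h1 h2
      obtain ⟨ψ⟩ : Nonempty (K →+* ℂ) := inferInstance
      have h3 := padic_test (e := 2 * V + 1) (by omega) D.bij5 ψ (D.cm ψ) D.φ hx
        (fun i hi => h1 i (by omega)) (fun P hP => h2 ⟨P, hP⟩)
      rw [two_mul] at h3
      have e : (-((2 * V + 1 : ℕ) : ℤ)) = -(((2 * V : ℕ) : ℤ) + 1) := by push_cast; ring
      rw [e] at h3
      exact h3

/-- completeness -/
lemma NT.tau_tau5 (h : Base D β V) (hp12 : p % 12 = 7) {w M : ℕ} (hM : 1 ≤ M)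
    (hw : 2 * V + 1 ≤ w) :
    NT K p (2 * V + 1) (tau β (p ^ w * M) / tau β (p ^ (2 * V + 1) * M)) := by
  have hp2 : p ≠ 2 := by rintro rfl; norm_num at hp12
  have hne : ∀ n, 1 ≤ n → (β ^ 2) ^ n ≠ 1 := fun n hn => by
    rw [← pow_mul]; exact h.pow_ne5 (by omega)
  have hne' : ∀ n, 1 ≤ n → (β ^ 2) ^ n ≠ -1 := fun n hn h1 => by
    apply hne (2 * n) (by omega)
    rw [mul_comm, pow_mul, h1]; norm_num
  have htau : ∀ n, 1 ≤ n → tau β n ≠ 0 := fun n hn => by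
    rw [tau_eq5]
    exact div_ne_zero (sub_ne_zero.2 (hne n hn))
      fun h0 => hne' n hn (eq_neg_of_add_eq_zero_left h0)
  have hpos : ∀ j, 1 ≤ p ^ j * M := fun j => Nat.mul_pos (pow_pos hp.out.pos j) hM
  induction w, hw using Nat.le_induction with
  | base =>
    rw [div_self (htau _ (hpos _))]
    exact NT.one5 _
  | succ w hw ih =>
    have e : tau β (p ^ (w + 1) * M) / tau β (p ^ (2 * V + 1) * M) =
        tau β (p ^ (w + 1) * M) / tau β (p ^ w * M) *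
          (tau β (p ^ w * M) / tau β (p ^ (2 * V + 1) * M)) := by
      rw [div_mul_div_cancel₀ (htau _ (hpos w))]
    rw [e]
    refine NT.mul5 ?_ ih
    have hd : p ^ (2 * V) ∣ p ^ w * M := (pow_dvd_pow p (by omega)).mul_right M
    have h1 := NT.step_sub5 D.φ (2 * V) (β ^ 2) hd (hne _ (hpos w))
    have h2 := NT.step_add5 D.φ hp2 (2 * V) (β ^ 2) hd (hne' _ (hpos w))
    have h3 := h1.div5 h2
    have e2 : tau β (p ^ (w + 1) * M) / tau β (p ^ w * M) =
        ((β ^ 2) ^ (p * (p ^ w * M)) - 1) / ((β ^ 2) ^ (p ^ w * M) - 1) /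
        (((β ^ 2) ^ (p * (p ^ w * M)) + 1) / ((β ^ 2) ^ (p ^ w * M) + 1)) := by
      have e3 : p ^ (w + 1) * M = p * (p ^ w * M) := by ring
      rw [tau_eq5, tau_eq5, e3]
      unfold TD.tau
      rw [div_div_div_comm]
    rw [e2]
    exact h3

/-- N2, N4, N5: powers and products, with `e = 2 * V + 1` -/
theorem pow_prod (h : Base D β V) (hp12 : p % 12 = 7) :
    (∀ i, 1 ≤ i → NT K p (2 * V + 1) (tau β i / tau β (p ^ (2 * V + 1))) → ∃ w, i = p ^ w) ∧
    (∀ w, 2 * V + 1 ≤ w → NT K p (2 * V + 1) (tau β (p ^ w) / tau β (p ^ (2 * V + 1)))) ∧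
    ∃ u₀, 1 ≤ u₀ ∧ ∀ w v u, 2 * V + 1 ≤ w → 1 ≤ v → w < u → u₀ ∣ w → u₀ ∣ v → u₀ ∣ u →
      (NT K p (2 * V + 1)
        (tau β (p ^ u - p ^ w) / tau β (p ^ (2 * V + 1) * (p ^ v - 1))) ↔ u = w + v) := by
  have hne : ∀ n, 1 ≤ n → (β ^ 2) ^ n ≠ 1 := fun n hn => by
    rw [← pow_mul]; exact h.pow_ne5 (by omega)
  have hne' : ∀ n, 1 ≤ n → (β ^ 2) ^ n ≠ -1 := fun n hn h1 => by
    apply hne (2 * n) (by omega)
    rw [mul_comm, pow_mul, h1]; norm_num
  have htau : ∀ n, 1 ≤ n → tau β n ≠ 0 := fun n hn => by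
    rw [tau_eq5]
    exact div_ne_zero (sub_ne_zero.2 (hne n hn))
      fun h0 => hne' n hn (eq_neg_of_add_eq_zero_left h0)
  have hp1 := hp.out.one_lt
  have key : ∀ a b, 1 ≤ a → 1 ≤ b → NT K p (2 * V + 1) (tau β a / tau β b) →
      ∀ i, ((lawData5 h hp12).f i : ℤ) ∣ (lawData5 h hp12).P.v i (TD.tau (lawData5 h hp12).A a) -
        (lawData5 h hp12).P.v i (TD.tau (lawData5 h hp12).A b) := by
    intro a b ha hb hN i
    have h1 := hN.dvd5 (by omega) i
    change ((ff (p ^ (2 * V + 1)) i.1 : ℕ) : ℤ) ∣ vv i.1 (TD.tau (β ^ 2) a) -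
      vv i.1 (TD.tau (β ^ 2) b)
    change ((ff (p ^ (2 * V + 1)) i.1 : ℕ) : ℤ) ∣ vv i.1 (tau β a / tau β b) at h1
    rwa [vv_div _ (htau a ha) (htau b hb), tau_eq5, tau_eq5] at h1
  refine ⟨?_, ?_, 2 ^ (Module.finrank ℚ K + 11), Nat.one_le_two_pow, ?_⟩
  · intro i hi hN
    exact (lawData5 h hp12).pow_sound hi (key i _ hi (Nat.one_le_pow _ _ hp.out.pos) hN)
  · intro w hw
    have := NT.tau_tau5 h hp12 (M := 1) le_rfl hw
    rwa [mul_one, mul_one] at this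
  · intro w v u hw hv hwu hdw hdv hdu
    have e : p ^ u - p ^ w = p ^ w * (p ^ (u - w) - 1) := by
      rw [Nat.mul_sub, mul_one, ← pow_add]
      congr 2
      omega
    have hpow : ∀ j, 1 ≤ j → 1 ≤ p ^ j - 1 := by
      intro j hj
      have : 1 < p ^ j := Nat.one_lt_pow (by omega) hp1
      omega
    rw [e]
    constructor
    · intro hN
      have h1 := key _ _ (Nat.mul_pos (pow_pos hp.out.pos w) (hpow (u - w) (by omega)))
        (Nat.mul_pos (pow_pos hp.out.pos _) (hpow v hv)) hN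
      have h2 := (lawData5 h hp12).prod_sound (a := w) (b := 2 * V + 1) (u := u - w) (v := v)
        (Nat.dvd_sub hdu hdw) hdv (by omega) hv h1
      omega
    · intro hu
      have : u - w = v := by omega
      rw [this]
      exact NT.tau_tau5 h hp12 (hpow v hv) hw

end base

end Vale.Agent.P027.T3
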